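import Vale.Agent.P281Z.Ri.Defs
import Vale.Agent.P281Z.An.All
import Vale.Agent.P281Z.Mf.Prod

/-!
# P281, block R1: graphs of meromorphic maps; thin sets and general fibres
-/

open scoped Manifold ContDiff Topology
open Set Filter Function
open Vale.Agent.P272.K (Cm Chart At)
open Vale.Agent.P277Z (Hol at_chart)
open Vale.Agent.P277Z.Slc (Ind LEq Snc)

noncomputable section

namespace Vale.Agent.P281Z.Ri

namespace GrfA

variable {n p : ℕ} {V : Mf n} {Y : Mf p}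

theorem an_cor {R : V.X → Y.X → Prop} (h : Cor R) :
    An (n + p) {z : (V.prod Y).X | R (V.p1 Y z) (V.p2 Y z)} := fun z => by
  obtain ⟨m, a, b, h1, h2, h3⟩ := h (V.p1 Y z) (V.p2 Y z)
  refine ⟨m, fun i w => a i (V.p1 Y w) - b i (V.p2 Y w),
    fun i => (hol_p1.hol (h1 i)).sub (hol_p2.hol (h2 i)), ?_⟩
  filter_upwards [(cont_p1.prodMk cont_p2).continuousAt.eventually h3] with w hw
  simpa only [sub_eq_zero, mem_ofPred_eq] using hw

theorem subM_cor {R : V.X → Y.X → Prop} {B : Set V.X} {g₀ : V.X → Y.X} (hB : IsClosed B)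
    (h : ∀ x ∉ B, HolA n p g₀ x ∧ ∀ y, R x y ↔ y = g₀ x) :
    SubM (n + p) n ({z : (V.prod Y).X | R (V.p1 Y z) (V.p2 Y z)} \ V.p1 Y ⁻¹' B) := by
  rintro z ⟨h1, h2⟩
  have h3 := h _ h2
  have h4 : V.p2 Y z = g₀ (V.p1 Y z) := (h3.2 _).1 h1
  have he := at_chart (n := p) (g₀ (V.p1 Y z))
  have he' : At (chartAt (Cm p) (g₀ (V.p1 Y z))) (V.p2 Y z) := by rw [h4]; exact he
  refine ⟨p, _, rfl, fp_ind (b := fun y => y) h3.1 (holM_id.at _) h4.symm (.inr (sbm_id _)) he, ?_⟩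
  filter_upwards [cont_p1.continuousAt.eventually (hB.isOpen_compl.mem_nhds h2),
    (h3.1.cont.comp cont_p1.continuousAt).eventually (at_near he),
    cont_p2.continuousAt.eventually (at_near he')] with w k1 k2 k3
  simp only [sub_eq_zero, ← funext_iff]
  exact ⟨fun k => congrArg _ (((h _ k1).2 _).1 k.1).symm, fun k =>
    ⟨((h _ k1).2 _).2 ((chartAt (Cm p) (g₀ (V.p1 Y z))).injOn k2.2 k3.2 k).symm, k1⟩⟩

/-- the complement of the divisors is dense in the regular fibres -/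
theorem freq {f : V.X → Y.X} {κ : Type} [Finite κ] {G : κ → Set V.X} (hf : HolM n p f)
    (hG : Snc n G) {x : V.X} (h : RegAt n p f G (f x)) : ∃ᶠ z in 𝓝 x, f z = f x ∧ z ∈ off G := by
  have h1 := (h.sbm hf hG rfl).le
  obtain ⟨F, i, hi, hS⟩ := h.fib (d := n - p) (by omega) hf hG
  obtain ⟨w, rfl⟩ := hi.ex (y := x) rfl
  exact hi.hol.cont.continuousAt.tendsto.frequently
    ((mem_closure_iff_frequently.1 (snc_dense_off hS w)).mono fun z hz => ⟨hi.fib z, hz⟩)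

end GrfA

open GrfA

/-- **GRF** -/
theorem grf_of (h : Rs.RES) : GRF := by
  intro n p V Y R B g₀ hR hB hg
  obtain ⟨I, hI⟩ := idl (n + p) (V.prod Y) _ (hB.1.pre hol_p1)
  obtain ⟨Z⟩ := h (n + p) n (V.prod Y) _ I (an_cor hR) (hI ▸ subM_cor hB.closed hg)
  have ho := Z.ovr
  rw [hI] at ho
  have hu : HolM n n fun x => V.p1 Y (Z.π x) := hol_p1.comp ho.hol
  have key : ∀ x, V.p1 Y (Z.π x) ∉ B →
      Z.π x = V.pair Y (V.p1 Y (Z.π x)) (g₀ (V.p1 Y (Z.π x))) := fun x hx =>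
    prod_ext rfl (((hg _ hx).2 _).1 (ho.maps x))
  refine ⟨Z.V, fun x => V.p1 Y (Z.π x), fun x => V.p2 Y (Z.π x), ⟨hB, hu, fun _ => trivial,
    ho.dense, fun y _ hy => ?_, fun x hx => ?_⟩, hol_p2.comp ho.hol, ho.maps,
    fun h1 h2 => Z.kah (h1.prod h2)⟩
  · obtain ⟨x, h1, h2⟩ := ho.one (V.pair Y y (g₀ y)) (((hg y hy).2 _).2 rfl) hy
    refine ⟨x, congrArg (V.p1 Y) h1, fun x' h3 => h2 x' ?_⟩
    subst h3
    exact key x' hy
  · refine Imm.of_comp (g := fun v => V.pair Y v (g₀ v)) ((holM_id.at _).pair (hg _ hx).1)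
      (hu.at x) ((ho.imm x hx).cng ?_)
    filter_upwards [hu.cont.continuousAt.eventually (hB.closed.isOpen_compl.mem_nhds hx)]
      with z hz using key z hz

/-- **FUB** -/
theorem fub_of (h : Rs.RES) (hG : GEN) : FUB := by
  intro n p V Y f Z hf hZ
  obtain ⟨I, rfl⟩ := idl n V Z hZ.1
  obtain ⟨R⟩ := h n n V univ I an_univ (subM_open (isOpen_univ.sdiff hZ.closed))
  have hm : Modif n R.π I.Z := ⟨hZ, R.ovr⟩
  obtain ⟨Q, hQ, hr⟩ := hG n p R.V Y (fun x => f (R.π x)) _ R.G (hf.comp hm.hol) R.snc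
  refine ⟨Q, hQ, fun x hx => ?_⟩
  obtain ⟨x, rfl⟩ := hm.surj x
  exact hm.hol.cont.continuousAt.tendsto.frequently
    ((freq (hf.comp hm.hol) R.snc (hr _ hx)).mono fun z hz =>
      ⟨hz.1, fun k => ((R.bad z).1 k).elim hz.2⟩)

end Vale.Agent.P281Z.Ri
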