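import Vale.Agent.P281Z.Sc.Sy
import Vale.Agent.P281Z.Mf.Fib
import Vale.Agent.P281Z.Pb.Defs
import Vale.Agent.P277.A.Basic

/-!
# P281, block R1: the relative Iitaka fibration (definitions, statements)
-/

open scoped Manifold ContDiff Topology
open Set Filter Function
open Vale.Agent.P272.K (Cm Chart At)
open Vale.Agent.P285.H281.FD (Bd IsLB IsSec NZ)
open Vale.Agent.P277 (CSp IsReg IsAn IsLBx RelAmple HolMap)
open Vale.Agent.P277.H60.Z (XH)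
open Vale.Agent.P277.HD (pull)
open Vale.Agent.P277Z (Hol)
open Vale.Agent.P277Z.Slc (Ind LEq Snc)

noncomputable section

namespace Vale.Agent.P281Z.Ri

/-- an open cover, with a number of generators for each member -/
structure Cvr {p : ℕ} (Y : Mf p) where
  ι : Type
  U : ι → Set Y.X
  k : ι → ℕ
  opn : ∀ α, IsOpen (U α)
  cov : ∀ y, ∃ α, y ∈ U α

section

variable {n p : ℕ} {V : Mf n} {Y : Mf p}

/-- on `O` the families `s α` generate each other -/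
def Cmp (C : Cvr Y) (f : V.X → Y.X) (O : Set V.X) (L : Bd V.X)
    (s : ∀ α, Fin (C.k α) → L.ι → V.X → ℂ) : Prop :=
  ∀ α β, ∀ y ∈ C.U α, y ∈ C.U β → ∃ A : Fin (C.k β) → Fin (C.k α) → Y.X → ℂ,
    (∀ j i, Hol p (A j i) y) ∧ ∀ᶠ y' in 𝓝 y, ∀ x ∈ O, f x = y' → ∀ b, x ∈ L.U b → ∀ j,
      s β j b x = ∑ i, A j i y' * s α i b x

/-- a relative linear system without base points -/
structure LS (f : V.X → Y.X) (C : Cvr Y) where
  H : Bd V.X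
  φ : ∀ α, Fin (C.k α) → H.ι → V.X → ℂ
  lb : IsLB n H
  hol : ∀ α j b x, f x ∈ C.U α → x ∈ H.U b → Hol n (φ α j b) x
  chg : ∀ α j b b' x, f x ∈ C.U α → x ∈ H.U b → x ∈ H.U b' → φ α j b x = H.g b b' x * φ α j b' x
  nz : ∀ α b x, f x ∈ C.U α → x ∈ H.U b → ∃ j, φ α j b x ≠ 0
  cmp : Cmp C f univ H φ

namespace LS

variable {f : V.X → Y.X} {C : Cvr Y} (S : LS f C)

/-- the points have the same image in the projective bundle -/
def Rel (x x' : V.X) : Prop :=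
  f x = f x' ∧ ∀ α b b' i j, f x ∈ C.U α → x ∈ S.H.U b → x' ∈ S.H.U b' →
    S.φ α i b x * S.φ α j b' x' = S.φ α j b x * S.φ α i b' x'

/-- the data of affine coordinates at `x` -/
structure Ad (α : C.ι) (b : S.H.ι) (j : Fin (C.k α)) (e : Chart p Y.X) (x : V.X) : Prop where
  mem : f x ∈ C.U α
  fr : x ∈ S.H.U b
  ne : S.φ α j b x ≠ 0
  ch : At e (f x)

/-- the affine coordinates -/
def crd (α : C.ι) (b : S.H.ι) (j : Fin (C.k α)) (e : Chart p Y.X) (x : V.X) :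
    Fin (C.k α) ⊕ Fin p → ℂ :=
  Sum.elim (fun i => S.φ α i b x / S.φ α j b x) (e (f x))

/-- `a` is near `x` a holomorphic function of the affine coordinates -/
def Fn (a : V.X → ℂ) (x : V.X) : Prop :=
  ∀ α b j e, S.Ad α b j e x → ∃ A : (Fin (C.k α) ⊕ Fin p → ℂ) → ℂ,
    AnalyticAt ℂ A (S.crd α b j e x) ∧ ∀ᶠ z in 𝓝 x, a z = A (S.crd α b j e z)

/-- `r` ratios and the coordinates of the base are independent at `x` -/
def Rk (r : ℕ) (x : V.X) : Prop :=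
  ∃ α b j e, ∃ σ : Fin r → Fin (C.k α), S.Ad α b j e x ∧
    Ind n (Sum.elim (fun c z => S.φ α (σ c) b z / S.φ α j b z) fun (c : Fin p) z => e (f z) c) x

end LS

/-- the image of the linear system, as a complex space -/
structure Qs {f : V.X → Y.X} {C : Cvr Y} (S : LS f C) (X : CSp) (q : V.X → X.pt)
    (h : X.pt → Y.X) : Prop where
  cont : Continuous q
  surj : Surjective q
  rel : ∀ x x', q x = q x' ↔ S.Rel x x'
  comm : ∀ x, h (q x) = f x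
  hh : ∀ z, HolMap X (XH p Y.X) h z
  f1 : ∀ x a, S.Fn a x → ∃ a', X.Hol a' (q x) ∧ ∀ᶠ z in 𝓝 x, a z = a' (q z)
  f2 : ∀ x a', X.Hol a' (q x) → S.Fn (fun z => a' (q z)) x
  amp : ∃ P, IsLBx X P ∧ RelAmple X (XH p Y.X) h P

/-- a resolution of a complex space -/
structure Rc (X : CSp) {w : ℕ} (W : Mf w) (π : W.X → X.pt) (B : Set X.pt) : Prop where
  cont : Continuous π
  hol : ∀ y a, X.Hol a (π y) → Hol w (fun z => a (π z)) y
  an : IsAn X univ B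
  dense : Dense Bᶜ
  dense' : Dense (π ⁻¹' B)ᶜ
  one : ∀ z ∉ B, ∃! y, π y = z
  sec : ∀ y, π y ∉ B → ∃ σ : X.pt → W.X, ContinuousAt σ (π y) ∧ σ (π y) = y ∧
    (∀ᶠ z in 𝓝 (π y), π (σ z) = z) ∧ ∀ a, Hol w a y → X.Hol (fun z => a (σ z)) (π y)
  kah : ∀ (p : ℕ) (Y : Mf p) (h : X.pt → Y.X) (P : Bd X.pt), (∀ z, HolMap X (XH p Y.X) h z) →
    IsLBx X P → RelAmple X (XH p Y.X) h P → Y.Kah → W.Kah

/-- a smooth model of the map given by the linear system -/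
structure Qt {f : V.X → Y.X} {C : Cvr Y} (S : LS f C) (w : ℕ) : Type 1 where
  W : Mf w
  V' : Mf n
  u : V'.X → V.X
  g : V'.X → W.X
  h : W.X → Y.X
  B : Set V.X
  T : Set W.X
  md : Modif n u B
  hg : HolM n w g
  sg : Surjective g
  hh : HolM w p h
  comm : ∀ x, h (g x) = f (u x)
  thin : Thin w T
  bad : ∀ x, u x ∈ B ↔ g x ∈ T
  rel : ∀ x x', g x = g x' → S.Rel (u x) (u x')
  sep : ∀ x x', g x ∉ T → S.Rel (u x) (u x') → g x' = g x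
  f1 : ∀ x a, S.Fn a (u x) → ∃ a', Hol w a' (g x) ∧ ∀ᶠ z in 𝓝 x, a (u z) = a' (g z)
  f2 : ∀ x a', g x ∉ T → Hol w a' (g x) → ∃ a, S.Fn a (u x) ∧ ∀ᶠ z in 𝓝 x, a (u z) = a' (g z)
  kah : V.Kah → Y.Kah → V'.Kah ∧ W.Kah

/-- the relation `R` is locally a fibre product -/
def Cor (R : V.X → Y.X → Prop) : Prop :=
  ∀ x y, ∃ (m : ℕ) (a : Fin m → V.X → ℂ) (b : Fin m → Y.X → ℂ), (∀ i, Hol n (a i) x) ∧
    (∀ i, Hol p (b i) y) ∧ ∀ᶠ z in 𝓝 (x, y), R z.1 z.2 ↔ ∀ i, a i z.1 = b i z.2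

end

/-- linear combinations -/
def cmb {X ι : Type} {r j : ℕ} (φ : Fin r → ι → X → ℂ) (A : Fin j → Fin r → ℂ) (c : Fin j) (b : ι)
    (x : X) : ℂ := ∑ i, A c i * φ i b x

/-- a statement on linear systems -/
def ForS (P : ∀ (n p : ℕ) (V : Mf n) (Y : Mf p) (f : V.X → Y.X) (C : Cvr Y), LS f C → Prop) :
    Prop :=
  ∀ (n p : ℕ) (V : Mf n) (Y : Mf p) (f : V.X → Y.X) (C : Cvr Y) (S : LS f C), HolM n p f →
    P n p V Y f C S

/-! ### The quotient -/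

/-- **QSP** -/
def QSP : Prop := ForS fun _ _ _ _ _ _ S => ∃ X q h, Qs S X q h

/-- **QREG**: the image of a connected manifold has pure dimension -/
def QREG : Prop := ∀ (n : ℕ) (V : Mf n) (X : CSp) (q : V.X → X.pt), ConnectedSpace V.X →
  Continuous q → Surjective q → (∀ x a, X.Hol a (q x) → Hol n (fun z => a (q z)) x) →
  ∃ w, Dense {z | IsReg w X z}

/-- **RESC** -/
def RESC : Prop := ∀ (w : ℕ) (X : CSp), PreconnectedSpace X.pt → Dense {z | IsReg w X z} →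
  ∃ (W : Mf w) (π : W.X → X.pt) (B : Set X.pt), Rc X W π B

/-- **GRF**: the graph of a meromorphic map -/
def GRF : Prop := ∀ (n p : ℕ) (V : Mf n) (Y : Mf p) (R : V.X → Y.X → Prop) (B : Set V.X)
  (g₀ : V.X → Y.X), Cor R → Thin n B → (∀ x ∉ B, HolA n p g₀ x ∧ ∀ y, R x y ↔ y = g₀ x) →
  ∃ (V' : Mf n) (u : V'.X → V.X) (g : V'.X → Y.X), Modif n u B ∧ HolM n p g ∧
    (∀ x, R (u x) (g x)) ∧ (V.Kah → Y.Kah → V'.Kah)

/-- **QUO** -/
def QUO : Prop := ForS fun _ _ V _ _ _ S => ConnectedSpace V.X → ∃ w, Nonempty (Qt S w)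

/-- **DIML** -/
def DIML : Prop := ForS fun n p V Y f _ S => ∀ w (_ : Qt S w) (r : ℕ) (a : Fin r → V.X → ℂ) x
  (e : Chart p Y.X), (∀ c, S.Fn (a c) x) → At e (f x) →
  Ind n (Sum.elim a fun (c : Fin p) z => e (f z) c) x → p + r ≤ w

/-- **DIMU** -/
def DIMU : Prop := ForS fun _ p V _ f _ S => ∀ w (_ : Qt S w) (r : ℕ), ConnectedSpace V.X →
  Surjective f → p + r ≤ w → ∃ x, S.Rk r x

/-- **STEIN** -/
def STEIN : Prop := ∀ (n p : ℕ) (V : Mf n) (Y : Mf p) (f : V.X → Y.X), ConnectedSpace V.X →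
  HolM n p f → Surjective f → ∃ (W : Mf p) (V' : Mf n) (u : V'.X → V.X) (B : Set V.X)
    (g : V'.X → W.X) (h : W.X → Y.X), Modif n u B ∧ Fibn n p g ∧ HolM p p h ∧
    (∀ x, h (g x) = f (u x)) ∧ (V.Kah → Y.Kah → V'.Kah ∧ W.Kah)

/-- **BASE**: the moving part of a relative linear system -/
def BASE : Prop := ∀ (n p : ℕ) (V : Mf n) (Y : Mf p) (f : V.X → Y.X) (C : Cvr Y) (L : Bd V.X)
  (κ : Type) [Fintype κ] (G : κ → Set V.X) (c : κ → ℝ) (s : ∀ α, Fin (C.k α) → L.ι → V.X → ℂ),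
  ConnectedSpace V.X → HolM n p f → IsLB n L → Snc n G →
  (∀ α j, SecP n n id (f ⁻¹' C.U α) L G c (s α j)) → Cmp C f (off G) L s →
  (∃ α j b x, f x ∈ C.U α ∧ x ∈ L.U b ∧ x ∈ off G ∧ s α j b x ≠ 0) →
  ∃ (V₁ : Mf n) (u : V₁.X → V.X) (B : Set V.X) (S : LS (fun x => f (u x)) C)
    (ς : L.ι × S.H.ι → V₁.X → ℂ) (Z : Set V₁.X), Modif n u B ∧ (V.Kah → V₁.Kah) ∧
    SecP n n u univ ((pull u L).mul (zp S.H (-1))) G c ς ∧ Thin n Z ∧
    (∀ x ∉ Z, u x ∈ off G ∧ NZ ((pull u L).mul (zp S.H (-1))) ς x) ∧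
    ∀ α j b h x, f (u x) ∈ C.U α → u x ∈ L.U b → x ∈ S.H.U h → u x ∈ off G →
      s α j b (u x) = ς (b, h) x * S.φ α j h x

/-! ### Tools -/

/-- **EXCH** -/
def EXCH : Prop := ∀ (n : ℕ) (V : Mf n) (α β γ : Type) [Fintype α] [Fintype β] [Fintype γ]
  (h : α ⊕ β → V.X → ℂ) (a : γ → V.X → ℂ) (x : V.X) (r : ℕ), (∀ i, Hol n (h i) x) →
  Ind n (fun b => h (.inr b)) x → Ind n a x → (∀ c, ∃ A : (α ⊕ β → ℂ) → ℂ,
    AnalyticAt ℂ A (fun i => h i x) ∧ ∀ᶠ z in 𝓝 x, a c z = A fun i => h i z) →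
  Fintype.card β + r ≤ Fintype.card γ →
  ∃ σ : Fin r → α, Ind n (Sum.elim (fun c => h (.inl (σ c))) fun b => h (.inr b)) x

/-- **INDC** -/
def INDC : Prop := ∀ (n p : ℕ) (V : Mf n) (Y : Mf p) (f : V.X → Y.X) (α : Type)
  (ζ : α → V.X → ℂ) (x : V.X) (e : Chart p Y.X) (a : Fin p → Y.X → ℂ), HolM n p f → At e (f x) →
  Ind p a (f x) → Ind n (Sum.elim ζ fun (c : Fin p) z => e (f z) c) x →
  Ind n (Sum.elim ζ fun c z => a c (f z)) x

/-- **LCST**: holomorphic functions on a compact manifold are locally constant -/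
def LCST : Prop := ∀ (n : ℕ) (V : Mf n) (a : V.X → ℂ), (∀ x, Hol n a x) → IsLocallyConstant a

/-- **FUB**: a thin set is nowhere dense in the general fibres -/
def FUB : Prop := ∀ (n p : ℕ) (V : Mf n) (Y : Mf p) (f : V.X → Y.X) (Z : Set V.X), HolM n p f →
  Thin n Z → ∃ Q, Thin p Q ∧ ∀ x, f x ∉ Q → ∃ᶠ z in 𝓝 x, f z = f x ∧ z ∉ Z

/-- **EXT0**: extension by zero -/
def EXT0 : Prop := ∀ (e n r : ℕ) (F F' : Mf e) (V : Mf n) (J : F'.X → V.X) (j : F.X → F'.X)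
  (T : Set F'.X) (L : Bd F'.X) (κ : Type) [Fintype κ] (G : κ → Set V.X) (c : κ → ℝ),
  Emb e e j T → Sy e n (fun x => J (j x)) (pull j L) G c r → Sy e n J L G c r

/-- **PULL**: log pluricanonical forms pull back to a log model -/
def PULL : Prop := ∀ (n m : ℕ) (V V' : Mf n) (u : V'.X → V.X) (B : Set V.X) (κ κ' : Type)
  [Fintype κ] [Fintype κ'] (G : κ → Set V.X) (δ : κ → ℚ) (G' : κ' → Set V'.X) (δ' : κ' → ℚ)
  (M : Bd V'.X) (s : Chart n V.X × M.ι → V'.X → ℂ), Modif n u B → Snc n G → Snc n G' →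
  (∀ l, 0 ≤ δ l ∧ δ l ≤ 1) → LogM n u G δ G' δ' → IsLB n M →
  SecP n n u univ ((pull u ((Bd.can n V.X).pow m)).mul M) G (fun l => m * δ l) s →
  ∃ s', SecP n n id univ (((Bd.can n V'.X).pow m).mul M) G' (fun l => m * δ' l) s' ∧
    ∀ x ∈ off G', Imm n n u x → NZ ((pull u ((Bd.can n V.X).pow m)).mul M) s x →
      NZ (((Bd.can n V'.X).pow m).mul M) s' x

/-- **RHO**: the number of sections on the general fibres is constant -/
def RHO : Prop := ∀ (n w : ℕ) (V : Mf n) (W : Mf w) (g : V.X → W.X) (L : Bd V.X) (κ : Type)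
  [Fintype κ] (G : κ → Set V.X) (c : κ → ℝ), ConnectedSpace V.X → Fibn n w g → IsLB n L →
  Snc n G → ∃ S, Thin w S ∧ (∀ y ∉ S, RegAt n w g G y) ∧ ∀ r ≤ 1, ∀ y ∉ S, ∀ y' ∉ S,
    ∀ (e : ℕ) (F F' : Mf e) (i : F.X → V.X) (i' : F'.X → V.X), Emb e n i (g ⁻¹' {y}) →
      Emb e n i' (g ⁻¹' {y'}) → Sy e n i (pull i L) G c r → Sy e n i' (pull i' L) G c r

/-- **PROJ**: projection onto a projective space -/
def PROJ : Prop := ∀ (d r a : ℕ) (F : Mf d) (H : Bd F.X) (φ : Fin r → H.ι → F.X → ℂ) (P : PS a),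
  ConnectedSpace F.X → IsLB d H → (∀ i, IsSec d H (φ i)) → (∀ b, ∀ x ∈ H.U b, ∃ i, φ i b x ≠ 0) →
  (∃ A : Fin (a + 1) → Fin r → ℂ, P281Z.Rk d univ H (cmb φ A)) →
  (∀ A : Fin (a + 1 + 1) → Fin r → ℂ, ¬ P281Z.Rk d univ H (cmb φ A)) →
  ∃ (A : Fin (a + 1) → Fin r → ℂ) (γ : F.X → P.P.X), HolM d a γ ∧ Surjective γ ∧
    ∀ b, ∀ x ∈ H.U b, (fun c => cmb φ A c b x) ≠ 0 ∧ γ x = P.pt fun c => cmb φ A c b x

/-- **ONEF**: the theorem of Iitaka on one manifold -/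
def ONEF : Prop := ∀ (d a m k : ℕ) (F : Mf d) (L H : Bd F.X) (κ : Type) [Fintype κ]
  (G : κ → Set F.X) (c : κ → ℝ) (t : Fin (a + 1) → H.ι → F.X → ℂ) (P : PS a) (γ : F.X → P.P.X)
  (ς : L.ι × H.ι → F.X → ℂ) (Z : Set F.X), IsLB d L → IsLB d H → Snc d G →
  (∀ j, IsSec d H (t j)) → HolM d a γ →
  (∀ b, ∀ x ∈ H.U b, (fun j => t j b x) ≠ 0 ∧ γ x = P.pt fun j => t j b x) → 0 < m →
  SecP d d id univ ((L.pow m).mul (zp H (-1))) G (fun l => m * c l) ς → Thin d Z →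
  (∀ x ∉ Z, NZ ((L.pow m).mul (zp H (-1))) ς x) → ¬ KapL d d id L G c (a + 1) →
  ∃ N, Neg a N ∧ ∀ z ∉ N, ∀ (e : ℕ) (Γ : Mf e) (j : Γ.X → F.X), Emb e d j (γ ⁻¹' {z}) →
    ¬ Sy e d j (pull j (L.pow k)) G (fun l => k * c l) 1

/-- **ONE**: the fibres of the Iitaka fibration -/
def ONE : Prop := ∀ (n w p e a m k : ℕ) (T : Tw n w p) (C : Cvr T.B) (S : LS T.fb.f C)
  (ς : Chart n T.X.X × S.H.ι → T.X.X → ℂ) (Z : Set T.X.X), T.toFb.Ok → Fibn w p T.h → n = w + e →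
  w = p + a → 0 < m → 0 < k →
  SecP n n id univ (((Bd.can n T.X.X).pow m).mul (zp S.H (-1))) T.G (fun l => m * T.δ l) ς →
  Thin n Z → (∀ x ∉ Z, NZ (((Bd.can n T.X.X).pow m).mul (zp S.H (-1))) ς x) →
  (∀ x x', T.f x = T.f x' → S.Rel x x') → (∃ x, S.Rk a x) → ¬ T.fb.Fib (e + a) (a + 1) →
  ∃ Q, Thin w Q ∧ ∀ y ∉ Q, ∀ (F : Mf e) (i : F.X → T.X.X), Emb e n i (T.f ⁻¹' {y}) →
    KapM e n i (Bd.can e F.X) T.G (fun l => T.δ l) (m * k) 0 ∧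
      ¬ KapM e n i (Bd.can e F.X) T.G (fun l => T.δ l) (m * k) 1

end Vale.Agent.P281Z.Ri
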