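import Vale.Agent.P281Z.Ri.Defs
import Vale.Agent.P281Z.Rs.Clo
import Vale.Agent.P281Z.Rs.Comp
import Vale.Agent.P281Z.Sc.Riem

/-!
# P281, block R1: the moving part of a relative linear system
-/

open scoped Manifold ContDiff Topology
open Set Filter Function
open Vale.Agent.P272.K (Cm Chart At)
open Vale.Agent.P285.H281.FD (Bd IsLB IsSec NZ)
open Vale.Agent.P277.HD (pull)
open Vale.Agent.P277Z (Hol hol_const)
open Vale.Agent.P277Z.Slc (LEq Snc)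

set_option linter.unusedSectionVars false

noncomputable section

namespace Vale.Agent.P281Z.Ri

namespace Bs

variable {n p : ℕ} {V : Mf n} {Y : Mf p} {f : V.X → Y.X} {C : Cvr Y} {L : Bd V.X} {κ : Type}
  [Fintype κ] {G : κ → Set V.X} {c : κ → ℝ} {s : ∀ α, Fin (C.k α) → L.ι → V.X → ℂ}

variable (f C L G c s) in
/-- the hypotheses -/
structure Dt : Prop where
  hf : HolM n p f
  hL : IsLB n L
  hG : Snc n G
  hs : ∀ α j, SecP n n id (f ⁻¹' C.U α) L G c (s α j)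
  hc : Cmp C f (off G) L s

theorem Dt.cmp (D : Dt f C L G c s) {x : V.X} {α β : C.ι} (hα : f x ∈ C.U α) (hβ : f x ∈ C.U β) :
    ∃ A : Fin (C.k β) → Fin (C.k α) → V.X → ℂ, (∀ j i, Hol n (A j i) x) ∧ ∀ᶠ z in 𝓝 x,
      z ∈ off G → ∀ b, z ∈ L.U b → ∀ j, s β j b z = ∑ i, A j i z * s α i b z :=
  let ⟨A, h1, h2⟩ := D.hc α β _ hα hβ
  ⟨fun j i z => A j i (f z), fun j i => D.hf.hol (h1 j i),
    (D.hf.cont.continuousAt.eventually h2).mono fun z a b => a z b rfl⟩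

theorem Dt.zero (D : Dt f C L G c s) {x : V.X} {α β : C.ι} {b b' : L.ι} (hx : x ∈ off G)
    (hα : f x ∈ C.U α) (hβ : f x ∈ C.U β) (hb : x ∈ L.U b) (hb' : x ∈ L.U b')
    (h : ∀ j, s α j b x = 0) (j : Fin (C.k β)) : s β j b' x = 0 := by
  obtain ⟨A, -, h2⟩ := D.cmp hα hβ
  rw [(D.hs β j).chg b' b x hβ hb' hb hx, h2.self_of_nhds hx b hb j]
  simp [h]

/-- the base ideal -/
theorem Dt.idl (D : Dt f C L G c s) : ∃ I : Idl n V.X,
    (∀ x ∈ off G, ∀ α b, f x ∈ C.U α → x ∈ L.U b → (x ∈ I.Z ↔ ∀ j, s α j b x = 0)) ∧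
    ∀ x, ∃ γ α, x ∈ I.U γ ∧ f x ∈ C.U α ∧ ∃ (τ : Fin (C.k α) → Fin (I.k γ))
      (μ : L.ι → V.X → ℂ), Surjective τ ∧ ∀ᶠ z in 𝓝 x, z ∈ off G → ∀ b, z ∈ L.U b → ∀ j,
        s α j b z = μ b z * I.g γ (τ j) z := by
  have hH := Hyp.of_snc D.hG
  choose α hα using fun x => C.cov (f x)
  choose b hb using D.hL.cover
  choose ζ hζ using hH
  have hO : ∀ β, IsOpen (f ⁻¹' C.U β) := fun β => (C.opn β).preimage D.hf.cont
  choose g g1 g2 using fun x j => ((D.hs (α x) j).bdP (hα x) (hb x)).ext D.hG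
    (fun l _ => Int.lt_floor_add_one (c l)) ((D.hs (α x) j).ev D.hL (hO _) (hα x) (hb x)) (hζ x)
  have h0 : ∀ x, ∀ᶠ y in 𝓝 x, f y ∈ C.U (α x) ∧ y ∈ L.U (b x) ∧ (∀ l, LEq n (G l) y (ζ x l)) ∧
      (∀ j, Hol n (g x j) y) ∧
      ∀ j, y ∈ off G → g x j y = s (α x) j (b x) y * ∏ l, ζ x l y ^ ⌊c l⌋ := fun x =>
    (((hO _).eventually_mem (hα x))).and ((lb_near D.hL (hb x)).and
      ((eventually_all.2 fun l => (hζ x l).near).and ((eventually_all.2 fun j => (g1 x j).near).and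
        (eventually_all.2 (g2 x)))))
  choose U h1 h2 h3 using fun x => eventually_nhds_iff.1 (h0 x)
  have hm : ∀ γ y, y ∈ U γ → y ∈ off G → ∏ l, ζ γ l y ^ ⌊c l⌋ ≠ 0 := fun γ y a d =>
    Finset.prod_ne_zero_iff.2 fun l _ => zpow_ne_zero _ (mt ((h1 γ y a).2.2.1 l).mem.1 (d l))
  have key : ∀ γ γ' x, x ∈ U γ → x ∈ U γ' →
      ∃ K : ℝ, 0 < K ∧ ∀ᶠ z in 𝓝 x, ∑ i, ‖g γ' i z‖ ≤ K * ∑ k, ‖g γ k z‖ := fun γ γ' x a a' => by
    obtain ⟨a1, a2, a3, a4, -⟩ := h1 γ x a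
    obtain ⟨b1, b2, b3, b4, -⟩ := h1 γ' x a'
    obtain ⟨A, k1, k2⟩ := D.cmp a1 b1
    choose w w1 w2 w3 using fun l => leq_unit (a3 l) (b3 l)
    have k3 : ∀ i k, Hol n
        (fun z => L.g (b γ') (b γ) z * (∏ l, w l z ^ ⌊c l⌋) * A i k z) x := fun i k =>
      ((lb_hol D.hL b2 a2).mul (Hol.prod _ fun l _ => (w1 l).zpow (w2 l) _)).mul (k1 i k)
    refine Rs.bound_of fun i => ⟨_, k3 i, (Hyp.of_snc D.hG).eq (b4 i)
      (Hol.sum _ fun k _ => (k3 i k).mul (a4 k)) ?_⟩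
    filter_upwards [(h2 γ).mem_nhds a, (h2 γ').mem_nhds a', k2, eventually_all.2 w3]
      with z c1 c2 c3 c4 c5
    obtain ⟨d1, d2, -, -, d3⟩ := h1 γ z c1
    obtain ⟨e1, e2, -, -, e3⟩ := h1 γ' z c2
    rw [e3 i c5, (D.hs _ i).chg _ _ z e1 e2 d2 c5, c3 c5 _ d2 i, Finset.mul_sum, Finset.sum_mul]
    refine Finset.sum_congr rfl fun k _ => ?_
    simp only [d3 k c5, c4, mul_zpow, Finset.prod_mul_distrib]
    ring
  refine ⟨⟨V.X, U, fun x => C.k (α x), g, h2, fun x => ⟨x, h3 x⟩,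
    fun γ i x hx => (h1 γ x hx).2.2.2.1 i, fun γ γ' x a a' => ?_⟩, fun x hx β b' k1 k2 => ?_,
    fun x => ⟨x, α x, h3 x, hα x, id, fun b' z => L.g b' (b x) z * (∏ l, ζ x l z ^ ⌊c l⌋)⁻¹,
      surjective_id, ?_⟩⟩
  · obtain ⟨K, hK, k⟩ := key γ γ' x a a'
    obtain ⟨K', hK', k'⟩ := key γ' γ x a' a
    refine ⟨K + K', by positivity, ?_⟩
    filter_upwards [k, k'] with z r q
    exact ⟨q.trans (mul_le_mul_of_nonneg_right (by linarith) (by positivity)),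
      r.trans (mul_le_mul_of_nonneg_right (by linarith) (by positivity))⟩
  · refine (Idl.mem_Z (γ := x) (h3 x)).trans ⟨fun h => D.zero hx (hα x) k1 (hb x) k2 fun j => ?_,
      fun h j => ?_⟩
    · exact (mul_eq_zero.1 (((h1 x x (h3 x)).2.2.2.2 j hx).symm.trans (h j))).resolve_right
        (hm x x (h3 x) hx)
    · show g x j x = 0
      rw [(h1 x x (h3 x)).2.2.2.2 j hx, D.zero hx k1 (hα x) k2 (hb x) h j, zero_mul]
  · filter_upwards [(h2 x).mem_nhds (h3 x)] with z a d b' e j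
    show _ = _ * g x j z
    rw [(h1 x z a).2.2.2.2 j d, (D.hs _ j).chg b' _ z (h1 x z a).1 e (h1 x z a).2.1 d, mul_assoc,
      mul_comm (s _ _ _ _), inv_mul_cancel_left₀ (hm x z a d)]

variable {V₁ : Mf n} {u : V₁.X → V.X} {x : V₁.X}

variable (s G u) in
/-- `q` is the ratio of two generators -/
def Rt (a h : Σ α, Fin (C.k α)) (q : V₁.X → ℂ) (x : V₁.X) : Prop :=
  Hol n q x ∧ ∀ᶠ z in 𝓝 x, u z ∈ off G → ∀ b, u z ∈ L.U b →
    s a.1 a.2 b (u z) = q z * s h.1 h.2 b (u z)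

variable (s G u f) in
/-- the set where `h` generates -/
def Ug (h : Σ α, Fin (C.k α)) : Set V₁.X :=
  {x | f (u x) ∈ C.U h.1 ∧ ∀ j, ∃ q, Rt G s u ⟨h.1, j⟩ h q x}

variable {a h h' : Σ α, Fin (C.k α)} {q q' : V₁.X → ℂ}

theorem Rt.near (k : Rt G s u a h q x) : ∀ᶠ z in 𝓝 x, Rt G s u a h q z :=
  k.1.near.and k.2.eventually_nhds

theorem Rt.mul (k : Rt G s u h' h q x) (k' : Rt G s u a h' q' x) :
    Rt G s u a h (fun z => q z * q' z) x :=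
  ⟨k.1.mul k'.1, (k.2.and k'.2).mono fun z d e b t => by rw [d.2 e b t, d.1 e b t]; ring⟩

theorem Rt.sum {α : C.ι} {A r : Fin (C.k α) → V₁.X → ℂ} (hA : ∀ i, Hol n (A i) x)
    (hr : ∀ i, Rt G s u ⟨α, i⟩ h (r i) x) (k : ∀ᶠ z in 𝓝 x, u z ∈ off G → ∀ b, u z ∈ L.U b →
      s a.1 a.2 b (u z) = ∑ i, A i z * s α i b (u z)) :
    Rt G s u a h (fun z => ∑ i, A i z * r i z) x :=
  ⟨Hol.sum _ fun i _ => (hA i).mul (hr i).1, by
    filter_upwards [k, eventually_all.2 fun i => (hr i).2] with z d e t b m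
    rw [d t b m, Finset.sum_mul]
    exact Finset.sum_congr rfl fun i _ => by rw [e i t b m, mul_assoc]⟩

theorem rt_one : Rt G s u h h (fun _ => 1) x :=
  ⟨hol_const 1 x, .of_forall fun _ _ _ _ => (one_mul _).symm⟩

theorem ug_open (hf : Continuous fun x => f (u x)) : IsOpen (Ug f G s u h) :=
  isOpen_iff_mem_nhds.2 fun _ hx => (hf.continuousAt.eventually ((C.opn _).mem_nhds hx.1)).and
    (eventually_all.2 fun j => (hx.2 j).elim fun q k => k.near.mono fun _ d => ⟨q, d⟩)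

theorem Dt.ex (D : Dt f C L G c s) (hu : HolM n n u) (hx : x ∈ Ug f G s u h)
    (ha : f (u x) ∈ C.U a.1) : ∃ q, Rt G s u a h q x := by
  obtain ⟨A, k1, k2⟩ := D.cmp hx.1 ha
  choose r hr using hx.2
  exact ⟨_, Rt.sum (fun i => hu.hol (k1 a.2 i)) hr
    ((hu.cont.continuousAt.eventually k2).mono fun z d e b t => d e b t a.2)⟩

end Bs

open Bs in
theorem base_of (hR : Rs.RES) : BASE := by
  intro n p V Y f C L κ _ G c s hV hf hL hG hs hc ⟨α₀, j₀, b₀, x₀, n1, n2, n3, n4⟩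
  have D : Dt f C L G c s := ⟨hf, hL, hG, hs, hc⟩
  obtain ⟨I, hZ, hI⟩ := D.idl
  have an : An n I.Z := fun x =>
    let ⟨γ, h⟩ := I.cover x
    ⟨_, I.g γ, fun k => I.hol γ k x h,
      mem_of_superset ((I.isOpen γ).mem_nhds h) fun _ => Idl.mem_Z⟩
  have thin : Thin n I.Z := an.thin fun e => n4 ((hZ x₀ n3 α₀ b₀ n1 n2).1 (e ▸ mem_univ _) j₀)
  obtain ⟨R⟩ := hR n n V univ I an_univ (subM_open (isOpen_univ.sdiff an.closed))
  have md : Modif n R.π I.Z := ⟨thin, R.ovr⟩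
  set u := R.π
  have hu := md.hol
  have tZ : Thin n (u ⁻¹' ((off G)ᶜ ∪ I.Z)) := md.pre_thin ((snc_thin_off hG).union thin)
  have hD : ∀ x, x ∉ u ⁻¹' ((off G)ᶜ ∪ I.Z) → u x ∈ off G ∧ u x ∉ I.Z := fun x k =>
    ⟨by_contra fun e => k (.inl e), fun e => k (.inr e)⟩
  have hfu : HolM n p fun x => f (u x) := hf.comp hu
  have nz : ∀ h x b, x ∈ Ug f G s u h → x ∉ u ⁻¹' ((off G)ᶜ ∪ I.Z) → u x ∈ L.U b →
      s h.1 h.2 b (u x) ≠ 0 := fun h x b k1 k2 k3 e => (hD x k2).2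
    ((hZ _ (hD x k2).1 h.1 b k1.1 k3).2 fun j => (k1.2 j).elim fun q k => by
      rw [k.2.self_of_nhds (hD x k2).1 b k3, e, mul_zero])
  choose b hb using hL.cover
  obtain ⟨ρ, hρ⟩ : ∃ ρ : (Σ α, Fin (C.k α)) → (Σ α, Fin (C.k α)) → R.V.X → ℂ, ∀ a h q x,
      x ∈ Ug f G s u h → Rt G s u a h q x → ∀ᶠ z in 𝓝 x, q z = ρ a h z :=
    ⟨fun a h => P277Z.Slc.Dv.ext (u ⁻¹' ((off G)ᶜ ∪ I.Z))ᶜ fun z =>
      s a.1 a.2 (b (u z)) (u z) / s h.1 h.2 (b (u z)) (u z), fun a h q x k1 k2 =>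
      P277Z.Slc.Dv.ext_eq tZ.dense k2.1 (by
        filter_upwards [(ug_open hfu.cont).mem_nhds k1, k2.2] with z d e t
        rw [e (hD z t).1 _ (hb _), mul_div_cancel_right₀ _ (nz h z _ d t (hb _))])⟩
  have rt : ∀ a h x, x ∈ Ug f G s u h → f (u x) ∈ C.U a.1 → Rt G s u a h (ρ a h) x :=
    fun a h x k1 k2 => (D.ex hu k1 k2).elim fun q k => ⟨k.1.congr (hρ a h q x k1 k),
      (k.2.and (hρ a h q x k1 k)).mono fun _ d => d.2 ▸ d.1⟩
  have mul : ∀ a h h' x, x ∈ Ug f G s u h → x ∈ Ug f G s u h' → f (u x) ∈ C.U a.1 →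
      ρ a h x = ρ h' h x * ρ a h' x := fun a h h' x k1 k2 k3 =>
    (hρ a h _ x k1 ((rt h' h x k1 k2.1).mul (rt a h' x k2 k3))).self_of_nhds.symm
  have one : ∀ h x, x ∈ Ug f G s u h → ρ h h x = 1 := fun h x k =>
    (hρ h h _ x k rt_one).self_of_nhds.symm
  have ne : ∀ h h' x, x ∈ Ug f G s u h → x ∈ Ug f G s u h' → ρ h' h x ≠ 0 := fun h h' x k k' =>
    left_ne_zero_of_mul_eq_one ((mul h h h' x k k' k.1).symm.trans (one h x k))
  have cov : ∀ x, ∃ h, x ∈ Ug f G s u h := fun x => by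
    obtain ⟨γ, α, k1, k2, τ, μ, k3, k4⟩ := hI (u x)
    obtain ⟨ζ, k5, -⟩ := R.snc x
    obtain ⟨r, r1, ⟨i, r2⟩, r3⟩ := R.prin x γ k1 ζ k5
    obtain ⟨j, rfl⟩ := k3 i
    refine ⟨⟨α, j⟩, k2, fun j' => ⟨fun z => r (τ j') z / r (τ j) z, (r1 _).div (r1 _) r2, ?_⟩⟩
    filter_upwards [hu.cont.continuousAt.eventually k4, r3, (r1 _).ne_near r2] with z d e t m b' o
    have e1 : I.g γ (τ j') (u z) = _ := e (τ j')
    have e2 : I.g γ (τ j) (u z) = _ := e (τ j)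
    show s α j' b' (u z) = _ * s α j b' (u z)
    rw [d m b' o, d m b' o, e1, e2]
    field_simp
  let H : Bd R.V.X := ⟨Σ α, Fin (C.k α), Ug f G s u, fun h h' => ρ h' h⟩
  have lb : IsLB n H := ⟨fun _ => ug_open hfu.cont, cov,
    fun h h' e x he k k' => ((rt h' h x k k'.1).1 e he).contDiffAt, ne,
    fun i j k x a d e => (mul k i j x a d e.1).symm⟩
  refine ⟨R.V, u, I.Z, ⟨H, fun α j h => ρ ⟨α, j⟩ h, lb, fun α j h x k1 k2 => (rt _ h x k2 k1).1,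
    fun α j h h' x k1 k2 k3 => mul _ h h' x k2 k3 k1, fun α h x k1 k2 => ?_, fun α β y k1 k2 => ?_⟩,
    fun a x => s a.2.1 a.2.2 a.1 (u x), _, md, R.kah, ⟨fun a x _ k1 k2 => ?_,
    fun a a' x _ k1 k2 k3 => ?_, fun a x _ k1 => ?_⟩, tZ,
    fun x k => ⟨(hD x k).1, fun a k1 => nz a.2 x a.1 k1.2 k k1.1⟩,
    fun α j b' h x k1 k2 k3 k4 => ?_⟩
  · obtain ⟨A, a1, a2⟩ := D.cmp k1 k2.1
    have e := (hρ h h _ x k2 (Rt.sum (fun i => hu.hol (a1 h.2 i)) (fun i => rt ⟨α, i⟩ h x k2 k1)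
      ((hu.cont.continuousAt.eventually a2).mono fun z d e b t => d e b t h.2))).self_of_nhds
    by_contra! o
    rw [one h x k2] at e
    simp [o] at e
  · obtain ⟨A, a1, a2⟩ := hc α β y k1 k2
    refine ⟨A, a1, ?_⟩
    filter_upwards [a2.eventually_nhds, (C.opn α).mem_nhds k1,
      eventually_all.2 fun j => eventually_all.2 fun i => (a1 j i).near]
    rintro _ d e t x - rfl h o j
    exact (hρ ⟨β, j⟩ h _ x o (Rt.sum (fun i => hfu.hol (t j i)) (fun i => rt ⟨α, i⟩ h x o e)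
      ((hfu.cont.continuousAt.eventually d).mono fun z d e b t =>
        d _ e rfl b t j))).self_of_nhds.symm
  · exact hu.hol ((hs _ _).hol a.1 _ k1.2.1 k1.1 k2)
  · show _ = L.g a.1 a'.1 (u x) * ρ a'.2 a.2 x ^ (-1 : ℤ) * _
    rw [(hs _ _).chg a.1 a'.1 _ k1.2.1 k1.1 k2.1 k3,
      (rt a'.2 a.2 x k1.2 k2.2.1).2.self_of_nhds k3 _ k2.1, zpow_neg_one, mul_assoc,
      inv_mul_cancel_left₀ (ne _ _ x k1.2 k2.2)]
  · exact ((hs _ _).bdP k1.2.1 k1.1).comp hu.cont.continuousAt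
  · exact ((rt ⟨α, j⟩ h x k3 k1).2.self_of_nhds k4 b' k2).trans (mul_comm _ _)

end Vale.Agent.P281Z.Ri
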