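import Vale.Agent.P281Z.Ri.Defs
import Vale.Agent.P281Z.Pb.Api

/-!
# P281, block R1: the theorem of Iitaka on one manifold
-/

open scoped Manifold ContDiff Topology
open Set Filter Function
open Vale.Agent.P272.K (Cm Chart At)
open Vale.Agent.P285.H281.FD (Bd IsLB IsSec NZ)
open Vale.Agent.P277.HD (pull)
open Vale.Agent.P277Z (Hol at_chart)
open Vale.Agent.P277Z.Slc (Ind LEq Snc)

noncomputable section

namespace Vale.Agent.P281Z.Ri

/-- the hyperplane bundle pulls back to the bundle which defines the map -/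
theorem cls_hyp {d a : ℕ} {F : Mf d} {H : Bd F.X} {t : Fin (a + 1) → H.ι → F.X → ℂ} (P : PS a)
    {γ : F.X → P.P.X} (hH : IsLB d H) (ht : ∀ j, IsSec d H (t j)) (hγ : HolM d a γ)
    (h : ∀ b, ∀ x ∈ H.U b, (fun j => t j b x) ≠ 0 ∧ γ x = P.pt fun j => t j b x) :
    cls d (pull γ P.H) = cls d H := by
  have hm : ∀ b h' x, x ∈ H.U b → γ x ∈ P.H.U h' → (P.pt fun j => t j b x) ∈ P.H.U h' :=
    fun b h' x hb hh => (h b x hb).2 ▸ hh
  refine ((cls_eq hH (hγ.lb P.lb)).2 ⟨fun b h x => P.sc h fun j => t j b x,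
    fun b h' x hb hh => P.sc_hol (s := fun y j => t j b y) (fun j => sec_hol (ht j) hb)
      (h b x hb).1 (hm b h' x hb hh),
    fun b h' x hb hh => P.sc_ne (h b x hb).1 (hm b h' x hb hh),
    fun b b' h₁ h₂ x hb hb' k₁ k₂ => ?_⟩).symm
  have e1 := P.sc_spec (h b x hb).1 (hm b h₁ x hb k₁)
  have e2 := P.sc_spec (h b' x hb').1 (hm b' h₂ x hb' k₂)
  rw [← (h b x hb).2, P.x_chg k₁ k₂, smul_smul] at e1
  rw [← (h b' x hb').2] at e2
  refine smul_left_injective ℂ (P.xnz h₂ _ k₂) (e1.symm.trans ?_)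
  show _ = (_ * _) • _
  rw [mul_smul, ← e2]
  exact funext fun j => (ht j).change b b' x hb hb'

/-- **ONEF** -/
theorem onef_of (hS : START) (hG : GEN) (hF : FUB) (hI : INDC) : ONEF := by
  intro d a m k F L H κ _ G c t P γ ς Z hL hH hsnc ht hγ hpt hm hς hZ hnz hkap
  obtain ⟨S, k1, hst⟩ := hS d a F P.P γ P.H (L.pow k) κ G (fun l => k * c l) P.conn hγ P.lb P.pos
    (lb_pow hL k) hsnc
  obtain ⟨Q, k2, hreg⟩ := hG d a F P.P γ κ G hγ hsnc
  obtain ⟨Q', k3, hfub⟩ := hF d a F P.P γ Z hγ hZ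
  refine ⟨S ∪ (Q ∪ Q'), k1.union (k2.union k3).neg, fun z hz e Γ j hj ⟨τ, hτ, hrk⟩ => hkap ?_⟩
  have hy := Hyp.of_snc hsnc
  have hD : Dense {x : Γ.X | j x ∉ Z} := fun x => mem_closure_iff_frequently.2 fun k => by
    obtain ⟨y, ⟨l1, l2⟩, l3⟩ := ((hfub (j x) fun l => hz (.inr (.inr (hj.fib x ▸ l)))).and_eventually
      (hj.ev.1 k)).exists
    obtain ⟨x', rfl⟩ := hj.ex (y := y) (l1.trans (hj.fib x))
    exact l3 x' rfl l2
  obtain ⟨x, hx, hxG, b, hb, h0, hind⟩ :=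
    hrk.move hy hj.hol.cont (hj.hol.lb (lb_pow hL k)) (hτ 0) hD
  choose a₀ ha₀ using fun r => hst z (fun l => hz (.inl l)) e Γ j hj (τ r) (hτ r)
  obtain ⟨h, hh⟩ := P.lb.cover z
  obtain ⟨A, hA⟩ : ∃ A, ∀ r, a₀ r ≤ A := ⟨a₀ 0 + a₀ 1, fun r => by fin_cases r <;> simp⟩
  choose s hs hsτ using fun r => ha₀ r A (hA r) h hh
  obtain ⟨β, hβ⟩ := hH.cover (j x)
  obtain ⟨l, hl⟩ : ∃ l, t l β (j x) ≠ 0 := Function.ne_iff.1 (hpt β _ hβ).1
  have hzx : γ (j x) = z := hj.fib x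
  have hh' : γ (j x) ∈ P.H.U h := hzx ▸ hh
  have hL1 := lb_mul (lb_pow hL k) (hγ.lb (lb_pow P.lb A))
  have hL2 := lb_mul (lb_pow hL m) (lb_zp hH (-1))
  have s0 : s 0 (b, h) (j x) ≠ 0 := (hsτ 0 x b hxG hb).trans_ne h0
  have sh : ∀ r, Hol d (s r (b, h)) (j x) := fun r => (hs r).hol (b, h) _ trivial ⟨hb, hh'⟩ hxG
  have ς0 : ς (b, β) (j x) ≠ 0 := hnz _ hx (b, β) ⟨hb, hβ⟩
  have ςh : Hol d (ς (b, β)) (j x) := hς.hol (b, β) _ trivial ⟨hb, hβ⟩ hxG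
  have i1 : Ind d (Sum.elim (fun (_ : Fin 1) y => s 1 (b, h) y / s 0 (b, h) y)
      fun (q : Fin a) y => chartAt (Cm a) (γ (j x)) (γ y) q) (j x) := by
    refine hj.ind_fib hγ ((hreg z fun l => hz (.inr (.inl l))).sbm hγ hsnc hzx)
      (fun _ => (sh 1).div (sh 0) s0) (at_chart _) (ind_congr hind fun q => ?_)
    filter_upwards [(hy.isOpen.preimage hj.hol.cont).mem_nhds hxG,
      lb_near (hj.hol.lb (lb_pow hL k)) hb] with y l1 l2
    rw [Subsingleton.elim q 0]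
    exact (congrArg₂ (· / ·) (hsτ 1 y b l1 l2) (hsτ 0 y b l1 l2)).symm
  have hxl : P.x h (γ (j x)) l ≠ 0 := by
    rw [(hpt β _ hβ).2] at hh' ⊢
    exact (P.x_ne_iff (hpt β _ hβ).1 hh' l).2 hl
  have i2 := (hI d a F P.P γ (Fin 1) _ (j x) _ _ hγ (at_chart _) (P.ind hh' hxl) i1).comp
    (Fin.cons (.inl 0) .inr : Fin (a + 1) → Fin 1 ⊕ Fin a)
    (Fin.cons_injective_iff.2 ⟨by simp, Sum.inr_injective⟩)
  let u : Fin (a + 1 + 1) → Fin 2 := Fin.cons 0 (Fin.cons 1 fun _ => 0)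
  let w : Fin (a + 1 + 1) → Fin (a + 1) := Fin.cons l (Fin.cons l l.succAbove)
  have hsy := sy_of (i := id) (x := j x) _ (fun q => (hs (u q)).mul continuous_id
    ((hς.pow continuous_id (A + 1)).mul continuous_id
      (secP_of_sec (c := fun _ => 0) continuous_id (ht (w q)) fun _ => le_rfl))) hxG
    ⟨((b, h), (b, β), β), ⟨⟨hb, hh'⟩, ⟨hb, hβ⟩, hβ⟩,
      mul_ne_zero s0 (mul_ne_zero (pow_ne_zero _ ς0) hl), ind_congr i2 fun q => by
      filter_upwards [(sh 0).ne_near s0, ςh.ne_near ς0, (sec_hol (ht l) hβ).ne_near hl,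
        lb_near hH hβ, lb_near (hγ.lb P.lb) hh'] with y l1 l2 l3 l4 l5
      refine Fin.cases ?_ (fun q => ?_) q
      · exact (mul_div_mul_right _ _ (mul_ne_zero (pow_ne_zero _ l2) l3)).symm
      · show P.x h (γ y) (l.succAbove q) / P.x h (γ y) l = s 0 (b, h) y *
          (ς (b, β) y ^ (A + 1) * t (l.succAbove q) β y) / (s 0 (b, h) y *
          (ς (b, β) y ^ (A + 1) * t l β y))
        have l6 : γ y ∈ P.H.U h := l5
        rw [mul_div_mul_left _ _ l1, mul_div_mul_left _ _ (pow_ne_zero _ l2)]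
        rw [(hpt β y l4).2] at l6 ⊢
        exact P.ratio (hpt β y l4).1 l6 _ _⟩
  refine hsy.kapL hy continuous_id hL (lb_mul hL1 (lb_mul (lb_pow hL2 _) hH))
    (m := k + m * (A + 1)) (by positivity) ?_ fun l => le_of_eq (by push_cast; ring)
  have e1 : cls d (pull γ (P.H.pow A)) = A • cls d H := by
    rw [← cls_hyp P hH ht hγ hpt]
    exact cls_pow (hγ.lb P.lb) A
  rw [cls_mul hL1 (lb_mul (lb_pow hL2 _) hH), cls_mul (lb_pow hL k) (hγ.lb (lb_pow P.lb A)),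
    cls_mul (lb_pow hL2 _) hH, cls_pow hL2, cls_mul (lb_pow hL m) (lb_zp hH (-1)), cls_pow hL,
    cls_pow hL, cls_zp hH, e1]
  module

end Vale.Agent.P281Z.Ri
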