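import Vale.Agent.P281Z.Ri.Defs
import Vale.Agent.P281Z.Pb.Api
import Vale.Agent.P281Z.Pb.Ps

/-!
# P281, block R1: projection onto a projective space (PROJ)
-/

open scoped Manifold ContDiff Topology
open Set Filter Function
open Vale.Agent.P272.K (Cm Chart At)
open Vale.Agent.P285.H281.FD (Bd IsLB IsSec)
open Vale.Agent.P277Z (Hol at_chart hol_const)
open Vale.Agent.P277Z.Slc (Ind dd)

noncomputable section

namespace Vale.Agent.P281Z.Ri

namespace Pj

variable {d e r a : ℕ} {F : Mf d} {H : Bd F.X} {φ : Fin r → H.ι → F.X → ℂ}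

/-- independent functions which are constant on an immersed manifold -/
theorem dim_le {Γ : Mf e} {i : Γ.X → F.X} {z : Γ.X} (hi : Imm e d i z) (hh : HolA e d i z)
    {g : Fin a → F.X → ℂ} (h1 : Ind d g (i z)) (h2 : ∀ c, ∀ᶠ w in 𝓝 z, g c (i w) = g c (i z)) :
    a + e ≤ d := by
  have hc := at_chart (n := e) z
  have he := at_chart (n := d) (i z)
  have k := (ContinuousLinearMap.pi fun c =>
    dd (g c) (chartAt (Cm d) (i z)) (i z)).toLinearMap.finrank_range_add_finrank_ker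
  have k1 : (df i (chartAt (Cm e) z) (chartAt (Cm d) (i z)) z).toLinearMap.range ≤
      (ContinuousLinearMap.pi fun c => dd (g c) (chartAt (Cm d) (i z)) (i z)).toLinearMap.ker := by
    rintro _ ⟨w, rfl⟩
    exact funext fun c => (DFunLike.congr_fun ((dd_comp (h1.1 c) hh hc he).symm.trans
      (P277Z.Slc.dd_congr (h2 c) hc)) w).trans (by simp [dd])
  have k2 := Submodule.finrank_mono k1
  rw [LinearMap.range_eq_top.2 ((P277Z.Slc.ind_iff_surj _).1 (h1.2 _ he)), finrank_top] at k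
  rw [LinearMap.finrank_range_of_inj (hi _ _ hc he)] at k2
  simp only [Module.finrank_fin_fun] at k k2
  omega

theorem sec (h : ∀ i, IsSec d H (φ i)) (A : Fin a → Fin r → ℂ) (c : Fin a) :
    IsSec d H (cmb φ A c) :=
  isSec_of (fun _ x hx => Hol.sum _ fun i _ => (hol_const _ x).mul (sec_hol (h i) hx))
    fun b b' x k k' => by
      simp only [cmb, Finset.mul_sum, (h _).change b b' x k k', mul_left_comm]

/-- no common zero -/
def Good (φ : Fin r → H.ι → F.X → ℂ) (A : Fin a → Fin r → ℂ) : Prop :=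
  ∀ b, ∀ x ∈ H.U b, (fun c => cmb φ A c b x) ≠ 0

theorem onto (hH : IsLB d H) (h : ∀ i, IsSec d H (φ i)) {A : Fin (a + 1) → Fin r → ℂ}
    (hA : Good φ A) (hm : ¬ ∃ A' : Fin a → Fin r → ℂ, Good φ A') (P : PS a) :
    ∃ γ : F.X → P.P.X, HolM d a γ ∧ Surjective γ ∧
      ∀ b, ∀ x ∈ H.U b, γ x = P.pt fun c => cmb φ A c b x := by
  obtain ⟨γ, h1, h2⟩ := P.lift_sec hH (s := fun b x c => cmb φ A c b x) (sec h A) hA
  refine ⟨γ, h1, fun p => ?_, h2⟩
  obtain ⟨v, hv, rfl⟩ := P.surj p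
  obtain ⟨l, hl⟩ := Function.ne_iff.1 hv
  by_contra k
  refine hm ⟨fun c i => v l * A (l.succAbove c) i - v (l.succAbove c) * A l i, fun b x hx k' =>
    k ⟨x, (h2 b x hx).trans ((P.pt_eq_iff (hA b x hx) hv).2 ⟨cmb φ A l b x / v l, funext fun c => ?_⟩)⟩⟩
  rw [Pi.smul_apply, smul_eq_mul, div_mul_eq_mul_div, eq_div_iff hl]
  induction c using Fin.succAboveCases l with
  | x => rfl
  | p c =>
    have := congrFun k' c
    simp only [cmb, sub_mul, mul_assoc, Finset.sum_sub_distrib, ← Finset.mul_sum, Pi.zero_apply,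
      sub_eq_zero] at this ⊢
    rw [mul_comm, this, mul_comm]

variable {A : Fin (a + 1) → Fin r → ℂ} {P : PS a} {γ : F.X → P.P.X} {x : F.X}

theorem rk_of (hH : IsLB d H) (hA : Good φ A) (h1 : HolM d a γ)
    (h2 : ∀ b, ∀ x ∈ H.U b, γ x = P.pt fun c => cmb φ A c b x) (hs : Sbm d a γ x) :
    ∃ A' : Fin (a + 1) → Fin r → ℂ, P281Z.Rk d univ H (cmb φ A') := by
  obtain ⟨b, hb⟩ := hH.cover x
  obtain ⟨l, hl⟩ := Function.ne_iff.1 (hA b x hb)
  obtain ⟨h, hp⟩ := P.lb.cover (γ x)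
  refine ⟨Fin.cons (A l) fun c => A (l.succAbove c), x, trivial, b, hb, hl, ind_congr (hs.ind (h1.at x)
    (P.ind hp (l := l) ?_)) fun c => ?_⟩
  · rw [h2 b x hb] at hp ⊢
    exact (P.x_ne_iff (hA b x hb) hp l).2 hl
  · filter_upwards [lb_near hH hb, h1.cont.continuousAt.eventually (lb_near P.lb hp)] with y k k'
    rw [h2 b y k] at k' ⊢
    exact P.ratio (hA b y k) k' _ _

theorem le_of (hL : LCST) (hH : IsLB d H) (h : ∀ i, IsSec d H (φ i)) (hA : Good φ A)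
    (h1 : HolM d a γ) (h2 : ∀ b, ∀ x ∈ H.U b, γ x = P.pt fun c => cmb φ A c b x)
    (hs : ∀ y, γ y = γ x → Sbm d a γ y) {a' : ℕ} {A' : Fin (a' + 1) → Fin r → ℂ}
    (hr : RkAt d H (cmb φ A') x) : a' ≤ a := by
  obtain ⟨b, hb, k1, k2⟩ := hr
  obtain ⟨l, hl⟩ := Function.ne_iff.1 (hA b x hb)
  have hd := (hs x rfl).le
  obtain ⟨Γ, i, hi⟩ := fib_emb (d := d - a) (by omega) h1 hs
  obtain ⟨z, rfl⟩ := hi.ex (y := x) rfl
  choose β hβ using hH.cover
  have k3 : ∀ w b', i w ∈ H.U b' → cmb φ A l b' (i w) ≠ 0 := fun w b' k k' => by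
    obtain ⟨c, hc⟩ := (P.pt_eq_iff (hA b _ hb) (hA b' _ k)).1
      ((h2 b _ hb).symm.trans ((hi.fib w).symm.trans (h2 b' _ k)))
    exact hl ((congrFun hc l).trans (by simp [k']))
  have k4 : ∀ c w b', i w ∈ H.U b' → ∀ᶠ y in 𝓝 w, cmb φ A' c b' (i y) / cmb φ A l b' (i y) =
      cmb φ A' c (β (i y)) (i y) / cmb φ A l (β (i y)) (i y) := fun c w b' k =>
    (hi.hol.cont.continuousAt.eventually (lb_near hH k)).mono fun y k' => by
      rw [(sec h A' c).change b' _ _ k' (hβ _), (sec h A l).change b' _ _ k' (hβ _),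
        mul_div_mul_left _ _ (hH.ne_zero _ _ _ k' (hβ _))]
  have k5 := fun c => (hL _ Γ _ fun w => ((hi.hol.hol (sec_hol (sec h A' c) (hβ (i w)))).div
    (hi.hol.hol (sec_hol (sec h A l) (hβ _))) (k3 w _ (hβ _))).congr (k4 c w _ (hβ _))).eventually_eq z
  have := dim_le (hi.imm z) (hi.hol.at z) k2 fun c => by
    filter_upwards [k4 c.succ z b hb, k4 0 z b hb, k5 c.succ, k5 0,
      hi.hol.cont.continuousAt.eventually (lb_near hH hb)] with y m1 m2 m3 m4 m5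
    rw [← div_div_div_cancel_right₀ (k3 y b m5), m1, m2, m3, m4, ← (k4 _ z b hb).self_of_nhds,
      ← (k4 _ z b hb).self_of_nhds, div_div_div_cancel_right₀ (k3 z b hb)]
  omega

end Pj

open Pj in
/-- **PROJ** -/
theorem proj_of (hG : GEN) (hL : LCST) : PROJ := by
  intro d r a F H φ P _ hH h h0 ⟨A₀, x₀, _, b₀, hb₀, k1, k2⟩ hn
  classical
  have ex : ∃ j, ∃ A : Fin j → Fin r → ℂ, Good φ A := ⟨r, fun c => Pi.single c 1, fun b x hx k =>
    (h0 b x hx).elim fun i hi => hi (by simpa [cmb, Pi.single_apply] using congrFun k i)⟩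
  obtain ⟨a', ha⟩ := Nat.exists_eq_succ_of_ne_zero (n := Nat.find ex) fun k =>
    (k ▸ Nat.find_spec ex : ∃ A : Fin 0 → Fin r → ℂ, Good φ A).elim fun A hA =>
      hA b₀ x₀ hb₀ (Subsingleton.elim _ _)
  obtain ⟨⟨A, hA⟩, hm⟩ := (Nat.find_eq_iff ex).1 ha
  have hm := hm _ a'.lt_succ_self
  obtain ⟨P'⟩ := Pb.psex a'
  obtain ⟨γ, h1, h2, h3⟩ := onto hH h hA hm P'
  have hS : P277Z.Slc.Snc d (Empty.elim : Empty → Set F.X) := fun x =>
    ⟨Empty.elim, fun l => l.elim, fun l => l.1.elim, fun _ _ =>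
      have : IsEmpty {l : Empty // x ∈ (l.elim : Set F.X)} := ⟨fun l => l.1.elim⟩
      linearIndependent_empty_type⟩
  obtain ⟨Q, hQ, h4⟩ := hG d a' F P'.P γ Empty _ h1 hS
  obtain ⟨x, k3, k4⟩ := (((hQ.pre_surj h1 h2).freq x₀).and_eventually
    ((lb_near hH hb₀).and (((sec_hol (sec h A₀ 0) hb₀).ne_near k1).and k2.near))).exists
  obtain ⟨A', k5⟩ := rk_of hH hA h1 h3 ((h4 _ k3).sbm h1 hS rfl)
  obtain rfl : a = a' := le_antisymm (le_of hL hH h hA h1 h3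
    (fun y => (h4 _ k3).sbm h1 hS) ⟨b₀, k4⟩) (not_lt.1 fun k => hn _ (k5.mono k))
  obtain ⟨γ, m1, m2, m3⟩ := onto hH h hA hm P
  exact ⟨A, γ, m1, m2, fun b x hx => ⟨hA b x hx, m3 b x hx⟩⟩

end Vale.Agent.P281Z.Ri
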