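import Vale.Agent.P281Z.Ri.Defs
import Vale.Agent.P281Z.Md.Pull
import Vale.Agent.P281Z.Md.Jac
import Vale.Agent.P281Z.Mf.Adj

/-!
# P281, block R1: log pluricanonical forms pull back to a log model
-/

open scoped Manifold ContDiff Topology
open Set Filter Function
open Vale.Agent.P272.K
open Vale.Agent.P285.H281.FD
open Vale.Agent.P277.HD (pull)
open Vale.Agent.P277Z (Hol at_chart)
open Vale.Agent.P277Z.Slc (LEq Snc)

set_option linter.unusedSectionVars false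

noncomputable section

namespace Vale.Agent.P281Z.Ri

namespace PullH

open Md

variable {n : ℕ} {X X₁ : Type} [TopologicalSpace X] [ChartedSpace (Cm n) X]
  [IsManifold 𝓘(ℂ, Cm n) ω X] [TopologicalSpace X₁] [ChartedSpace (Cm n) X₁]
  [IsManifold 𝓘(ℂ, Cm n) ω X₁] {u : X₁ → X}

theorem den {κ : Type} [Fintype κ] {δ : κ → ℚ} (h : ∀ l, 0 ≤ δ l) :
    ∃ (N : ℕ) (k : κ → ℕ), N ≠ 0 ∧ ∀ l, (N : ℝ) * δ l = k l := by
  have h1 : ∀ l, ∃ k : ℕ, ((∏ l, (δ l).den : ℕ) : ℝ) * δ l = k := fun l => by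
    obtain ⟨c, hc⟩ := Finset.dvd_prod_of_mem (fun l => (δ l).den) (Finset.mem_univ l)
    obtain ⟨a, ha⟩ := Int.eq_ofNat_of_zero_le (Rat.num_nonneg.2 (h l))
    refine ⟨c * a, ?_⟩
    have := Rat.den_mul_eq_num (δ l)
    rw [ha] at this
    rw [hc]
    exact_mod_cast (show (((δ l).den * c : ℕ) : ℚ) * δ l = (c * a : ℕ) by
      push_cast at this ⊢
      rw [← this]
      ring)
  choose k hk using h1
  exact ⟨_, k, Finset.prod_ne_zero_iff.2 fun l _ => (δ l).den_nz, hk⟩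

/-- the discrepancies of a log model -/
theorem key (hu : HolM n n u) {κ κ₁ : Type} [Fintype κ] [Fintype κ₁] {G : κ → Set X} {δ : κ → ℚ}
    {G₁ : κ₁ → Set X₁} {δ₁ : κ₁ → ℚ} (hG : Snc n G) (hG₁ : Snc n G₁)
    (hδ : ∀ l, 0 ≤ δ l ∧ δ l ≤ 1) (hL : LogM n u G δ G₁ δ₁) {x : X₁} {e₁ : Chart n X₁}
    {e : Chart n X} (he₁ : At e₁ x) (he : At e (u x)) {ζ : κ → X → ℂ} {ζ₁ : κ₁ → X₁ → ℂ}
    (hζ : ∀ l, LEq n (G l) (u x) (ζ l)) (hζ₁ : ∀ l, LEq n (G₁ l) x (ζ₁ l)) :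
    ∃ C : ℝ, 0 < C ∧ ∀ᶠ y in 𝓝 x, y ∈ off G₁ → ‖(dfM u e₁ e y).det‖ * ∏ l, ‖ζ₁ l y‖ ^ (δ₁ l : ℝ) ≤
      C * ∏ l, ‖ζ l (u y)‖ ^ (δ l : ℝ) := by
  obtain ⟨N, k, hN, hk⟩ := den fun l => (hδ l).1
  have h1 : ∀ y, ‖(∏ l, ζ l y ^ k l)⁻¹‖ = (∏ l, ‖ζ l y‖ ^ ((N : ℝ) * δ l))⁻¹ := fun y => by
    simp only [hk, Real.rpow_natCast, norm_inv, norm_prod, norm_pow]
  have hτ : ∀ᶠ y in 𝓝 (u x), y ∈ off G → Hol n (fun y => (∏ l, ζ l y ^ k l)⁻¹) y := by
    filter_upwards [ne_off hζ, eventually_all.2 fun l => (hζ l).hol.near] with y a b hy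
    exact (Hol.prod _ fun l _ => (b l).pow _).inv
      (Finset.prod_ne_zero_iff.2 fun l _ => pow_ne_zero _ (a hy l))
  have hb : ∀ ξ : κ → X → ℂ, (∀ l, LEq n (G l) (u x) (ξ l)) → LB (off G) (fun y =>
      ‖(∏ l, ζ l y ^ k l)⁻¹‖ * ∏ l, ‖ξ l y‖ ^ ((N : ℝ) * δ l)) e e (fun _ _ => 1) N (u x) :=
    fun ξ hξ => lb_one.2 fun I => by
      choose v v1 v2 v3 using fun l => leq_unit (hζ l) (hξ l)
      have h2 : Bnd (off G) (fun y => ‖(∏ l, ζ l y ^ k l)⁻¹‖ * ‖mn e e I y‖ ^ N *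
          ∏ l, ‖ζ l y‖ ^ ((N : ℝ) * δ l)) (u x) :=
        (bnd_cont (F := fun y => ‖mn e e I y‖ ^ N) ((hol_mn (ca_of he) (anV_chart he) I).cont.norm.pow N)).mono
          ((ne_off hζ).mono fun y a hy => ⟨hy, le_of_eq (by
            rw [h1, mul_right_comm, inv_mul_cancel₀ (wt_pos (a hy) _).ne', one_mul])⟩)
      simpa only [mul_right_comm, Bnd] using bd_unit (fun l => (v1 l).cont.tendsto) v2 v3
        (fun _ => by positivity) h2
  obtain ⟨C, hC⟩ := lb_one.1 (pull_bd (T := fun v => ‖(∏ l, ζ l (e.symm v) ^ k l)⁻¹‖) jac hu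
    hG hG₁ (fun l => (hδ l).2) hL (anV_chart he) (gn_off hG _) subset_rfl (gn_off hG₁ _) subset_rfl
    hL.sub hτ (by
      filter_upwards [at_near he, (at_near he).eventually_nhds, hτ.eventually_nhds] with y a b c
      refine ⟨by rw [a.left_inv], (e.continuousAt a.2).tendsto.frequently
        (((gn_off hG y).freq.and_eventually (b.and c)).mono fun z d => ?_)⟩
      exact (ContinuousAt.comp_of_eq (d.2.2 d.1).cont (e.continuousAt_symm (e.map_source d.2.1.2))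
        d.2.1.left_inv).norm) (ca_of he) hb (ca_of he₁) hζ₁) id
  refine ⟨|C| + 1, by positivity, ?_⟩
  filter_upwards [hC, hu.cont.continuousAt.eventually (ne_off hζ)] with y a b hy
  have h2 := wt_pos (b (hL.sub y hy)) fun l => (δ l : ℝ)
  have h3 := a hy
  have h4 : mn (fun y => e (u y)) e₁ id y = (dfM u e₁ e y).det :=
    congrArg Matrix.det (Matrix.ext fun a b => (dfM_apply a b).symm)
  rw [h1, prod_exp, prod_exp, h4, mul_assoc, inv_mul_le_iff₀ (pow_pos h2 N), ← mul_pow,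
    mul_comm] at h3
  refine le_of_pow_le_pow_left₀ hN (by positivity) (h3.trans ?_)
  rw [mul_pow, mul_comm]
  exact mul_le_mul_of_nonneg_right (((le_abs_self C).trans (le_add_of_nonneg_right zero_le_one)).trans
    (le_self_pow₀ (le_add_of_nonneg_left (abs_nonneg C)) hN)) (pow_pos h2 N).le

theorem jac_self {e : Chart n X} {x : X} (he : At e x) : jacM e e x = 1 :=
  (dfM_id he he).symm.trans (dfM_id_self he)

end PullH

open PullH in
theorem pull_of : PULL := by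
  intro n m V V' u B κ κ' _ _ G δ G' δ' M s hu hG hG' hδ hL hM hs
  have hh := hu.2.hol
  have hc : ∀ x ∈ off G', ∀ (e e₂ : Chart n V.X) a b, At e (u x) → At e₂ (u x) → x ∈ M.U a →
      x ∈ M.U b → s (e, a) x = (jacM e e₂ (u x)).det ^ m * M.g a b x * s (e₂, b) x :=
    fun x hx e e₂ a b h1 h2 h3 h4 => hs.chg (e, a) (e₂, b) x trivial ⟨h1, h3⟩ ⟨h2, h4⟩ (hL.sub x hx)
  have loc : ∀ x ∈ off G', ∀ (e' : Chart n V'.X) (e : Chart n V.X) a, At e' x → At e (u x) →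
      x ∈ M.U a → (dfM u e' (chartAt (Cm n) (u x)) x).det ^ m * s (chartAt (Cm n) (u x), a) x =
        (dfM u e' e x).det ^ m * s (e, a) x := fun x hx e' e a he' he ha => by
    rw [hc x hx _ e a a (at_chart _) he ha ha, dfM_chg' (hh.at x) he' (at_chart _) he,
      Matrix.det_mul, lb_self hM ha]
    ring
  have loc' : ∀ x (e' : Chart n V'.X) a, At e' x → x ∈ M.U a → ∀ᶠ y in 𝓝 x, y ∈ off G' →
      (dfM u e' (chartAt (Cm n) (u y)) y).det ^ m * s (chartAt (Cm n) (u y), a) y =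
        (dfM u e' (chartAt (Cm n) (u x)) y).det ^ m * s (chartAt (Cm n) (u x), a) y :=
    fun x e' a he' ha => by
      filter_upwards [at_near he', hh.cont.continuousAt.eventually
        (at_near (at_chart (n := n) (u x))), lb_near hM ha] with y b c d hy using loc y hy e' _ a b c d
  refine ⟨fun a x => (dfM u a.1 (chartAt (Cm n) (u x)) x).det ^ m * s (chartAt (Cm n) (u x), a.2) x,
    ⟨fun a x _ ha hx => ?_, fun a b x _ ha hb hx => ?_, fun a x _ ha ζ' hζ' => ?_⟩,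
    fun x _ hi h0 a ha => mul_ne_zero (pow_ne_zero _ ((imm_iff_det (hh.at x) ha.1 (at_chart _)).1 hi))
      (h0 (_, a.2) ⟨at_chart _, ha.2⟩)⟩
  · refine (((hol_det fun i j => hol_dfM (hh.at x) ha.1 (at_chart _) i j).pow m).mul
      (hs.hol (_, a.2) x trivial ⟨at_chart _, ha.2⟩ (hL.sub x hx))).congr ?_
    filter_upwards [loc' x a.1 a.2 ha.1 ha.2, (snc_open_off hG').mem_nhds hx] with y b c
      using (b c).symm
  · change _ = (jacM a.1 b.1 x).det ^ m * M.g a.2 b.2 x * _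
    rw [hc x hx _ _ a.2 b.2 (at_chart _) (at_chart _) ha.2 hb.2,
      dfM_chg (hh.at x) hb.1 ha.1 (at_chart _), Matrix.det_mul, jac_self (at_chart _),
      Matrix.det_one]
    ring
  · obtain ⟨ζ, hζ, -⟩ := hG (u x)
    obtain ⟨C, hC, h1⟩ := key hh hG hG' hδ hL ha.1 (at_chart (u x)) hζ hζ'
    obtain ⟨C', h2⟩ := hs.bd (_, a.2) x trivial ⟨at_chart _, ha.2⟩ ζ hζ
    refine ⟨C ^ m * C', ?_⟩
    filter_upwards [h1, h2, loc' x a.1 a.2 ha.1 ha.2] with y b c d hy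
    have c' := c (hL.sub y hy)
    rw [Md.prod_exp] at c' ⊢
    rw [d hy, norm_mul, norm_pow, mul_right_comm, ← mul_pow]
    refine (mul_le_mul_of_nonneg_right (pow_le_pow_left₀ (by positivity) (b hy) m)
      (norm_nonneg _)).trans ?_
    rw [mul_pow, mul_assoc, mul_comm _ ‖_‖]
    exact mul_le_mul_of_nonneg_left c' (by positivity)

end Vale.Agent.P281Z.Ri
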