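import Vale.Agent.P281Z.Ri.Defs
import Vale.Agent.P281Z.An.Reml
import Vale.Agent.P281Z.An.Reg
import Vale.Agent.P281Z.An.Img
import Vale.Agent.P277Z.Glc.Sing

/-!
# P281, block R1: the image of a connected manifold has pure dimension
-/

open scoped Manifold ContDiff Topology
open Set Filter Function
open Vale.Agent.P272.K (Cm Chart At)
open Vale.Agent.P277 (CSp IsReg IsModel)
open Vale.Agent.P277Z (Hol at_chart)
open Vale.Agent.P277Z.Pj (H38.An)
open Vale.Agent.P281Z.Ana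

noncomputable section

namespace Vale.Agent.P281Z.Ri

namespace QregA

theorem re_le {N c : ℕ} {A : Set (Cm N)} {y : Cm N} (h : Rg.RE A c y) : c ≤ N := by
  obtain ⟨g, -, h1, -⟩ := h
  simpa using LinearMap.finrank_le_finrank_of_surjective (f := (ContinuousLinearMap.pi fun a =>
    fderiv ℂ (g a) y).toLinearMap) ((P277Z.Slc.ind_iff_surj _).1 h1)

/-- the regular points are dense -/
theorem reg_dense (X : CSp) : Dense {y | ∃ d, IsReg d X y} := by
  refine dense_iff_inter_open.2 ?_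
  rintro U hU ⟨y₀, hy₀⟩
  obtain ⟨N, k, W, Ω, h, φ, hW, M⟩ := X.model y₀
  obtain ⟨c, ⟨y, hy, g, g1, g2, g3⟩, hmax⟩ : ∃ c, (∃ y ∈ U ∩ W, Rg.RE (φ '' W) c (φ y)) ∧
      ∀ y ∈ U ∩ W, ¬ Rg.RE (φ '' W) (c + 1) (φ y) := by
    have hb : BddAbove {c | ∃ y ∈ U ∩ W, Rg.RE (φ '' W) c (φ y)} :=
      ⟨N, fun c ⟨_, _, k⟩ => re_le k⟩
    have hn : {c | ∃ y ∈ U ∩ W, Rg.RE (φ '' W) c (φ y)}.Nonempty :=
      ⟨0, y₀, ⟨hy₀, hW⟩, Fin.elim0, fun a => a.elim0, linearIndependent_empty_type,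
        fun a => a.elim0⟩
    refine ⟨_, Nat.sSup_mem hn hb, fun y hy k => ?_⟩
    exact absurd (le_csSup hb ⟨y, hy, k⟩) (Nat.not_succ_le_self _)
  have hd : c + (N - c) = N := Nat.add_sub_cancel' (re_le ⟨g, g1, g2, g3⟩)
  have hm : φ y ∈ φ '' W := mem_image_of_mem φ hy.2
  have hΩ : φ y ∈ Ω := (M.image ▸ hm : φ y ∈ {z ∈ Ω | ∀ i, h i z = 0}).1
  have hA : AnE (φ '' W) (φ y) := ⟨k, h, fun i => M.holo i _ hΩ, by
    filter_upwards [M.isOpen'.mem_nhds hΩ] with z hz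
    rw [M.image]
    exact ⟨fun a => a.2, fun a => ⟨hz, a⟩⟩⟩
  have h1 := Rg.sub_of hA hm g1 g2 g3 hd (by
    filter_upwards [P277Z.Oka.Csp.push M hy.2 (hU.eventually_mem hy.1)] with z a
    rintro ⟨y', b, rfl⟩
    exact hmax y' ⟨a y' b rfl, b⟩)
  obtain ⟨Φ, P, a1, a2, -, a4⟩ := P277Z.Slc.par (d := N - c) (AnalyticAt.pi g1) (by
    rw [fderiv_pi fun a => (g1 a).differentiableAt]
    exact (P277Z.Slc.ind_iff_surj _).1 g2) (by simpa using hd)
  have b1 : ∀ z, (∀ a, g a z = 0) → Φ z = (0, P z) := fun z k => by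
    rw [a2, show (fun a => g a z) = 0 from funext k]
  have b2 := b1 _ fun a => (g3 a).self_of_nhds hm
  have b3 : ((0 : Fin c → ℂ), P (φ y)) ∈ Φ.target := b2 ▸ Φ.map_source a1
  have b4 : AnalyticAt ℂ (fun w => Φ.symm (0, w)) (P (φ y)) :=
    (a4 _ b3).comp (analyticAt_const.prod analyticAt_id)
  have b5 : Tendsto (fun w => Φ.symm (0, w)) (𝓝 (P (φ y))) (𝓝 (φ y)) := by
    simpa only [ContinuousAt, ← b2, Φ.left_inv a1] using b4.continuousAt
  refine ⟨y, hy.1, N - c, P277Z.Glc.S44.isReg_of M hy.2 P.analyticAt b4 ?_ ?_⟩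
  · filter_upwards [Φ.open_source.mem_nhds a1, eventually_all.2 g3] with z a b hz
    rw [← b1 z fun i => b i hz, Φ.left_inv a]
  · filter_upwards [b5.eventually h1, (continuous_const.prodMk continuous_id).continuousAt.eventually
      (Φ.open_target.mem_nhds b3)] with w a b
    have e := (a2 _).symm.trans (Φ.right_inv b)
    exact ⟨a (congrFun (congrArg Prod.fst e)), congrArg Prod.snd e⟩

variable {n : ℕ} {V : Mf n} {X : CSp} {q : V.X → X.pt} {N k N' k' : ℕ} {W W' : Set X.pt}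
  {Ω : Set (Cm N)} {h : Fin k → Cm N → ℂ} {φ : X.pt → Cm N} {Ω' : Set (Cm N')}
  {h' : Fin k' → Cm N' → ℂ} {φ' : X.pt → Cm N'} {x : V.X}

theorem an_q (hq : ∀ x a, X.Hol a (q x) → Hol n (fun z => a (q z)) x) (M : IsModel X.Hol W Ω h φ)
    (hx : q x ∈ W) : H38.An n (fun z => φ (q z)) x := fun e he =>
  AnalyticAt.pi fun a => hq x _ (M.isCoord.hol a _ hx) e he

theorem rk_le (hc : Continuous q) (hq : ∀ x a, X.Hol a (q x) → Hol n (fun z => a (q z)) x)
    (M : IsModel X.Hol W Ω h φ) (M' : IsModel X.Hol W' Ω' h' φ') (hx : q x ∈ W) (hx' : q x ∈ W') :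
    rkM n (fun z => φ' (q z)) x ≤ rkM n (fun z => φ (q z)) x := by
  choose G hG e using fun a => (M.hol _ hx _).1 (M'.isCoord.hol a _ hx')
  have he := at_chart (n := n) x
  have h1 : (fun z => φ' (q ((chartAt (Cm n) x).symm z))) =ᶠ[𝓝 (chartAt (Cm n) x x)]
      fun z a => G a (φ (q ((chartAt (Cm n) x).symm z))) :=
    (at_ev he (hc.continuousAt.eventually (eventually_all.2 e))).mono fun z hz => funext hz
  have h2 := (Im.comp_eq (AnalyticAt.pi hG) (an_q hq M hx _ he).differentiableAt.hasFDerivAt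
    (by rw [he.left_inv])).fderiv
  unfold rkM dC
  rw [h1.fderiv_eq, h2]
  exact rk_comp_le_right _ _

end QregA

open QregA

/-- **QREG** -/
theorem qreg : QREG := by
  intro n V X q _ hc hs hq
  choose N k W Ω h φ hW M using X.model
  let r : V.X → ℕ := fun x => rkM n (fun z => φ (q x) (q z)) x
  have hr : ∀ {N' k' : ℕ} {W' : Set X.pt} {Ω' : Set (Cm N')} {h' : Fin k' → Cm N' → ℂ}
      {φ' : X.pt → Cm N'}, IsModel X.Hol W' Ω' h' φ' → ∀ x, q x ∈ W' →
      rkM n (fun z => φ' (q z)) x = r x := fun M' x hx =>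
    (rk_le hc hq (M _) M' (hW _) hx).antisymm (rk_le hc hq M' (M _) hx (hW _))
  obtain ⟨x₀, h0⟩ : ∃ x₀, ∀ x, r x ≤ r x₀ := by
    have hb : BddAbove (range r) := ⟨n, by
      rintro _ ⟨x, rfl⟩
      exact rk_le_left _⟩
    obtain ⟨x₀, e⟩ := Nat.sSup_mem (range_nonempty _) hb
    exact ⟨x₀, fun x => e ▸ le_csSup hb (mem_range_self x)⟩
  have hC : An n {x | r x < r x₀} := fun x =>
    (anAt_rkM (an_q hq (M _) (hW (q x))) (r x₀)).congr (by
      filter_upwards [hc.continuousAt.eventually ((M (q x)).isOpen.mem_nhds (hW _))] with z hz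
      exact iff_of_eq (congrArg (· < r x₀) (hr (M _) z hz)))
  have hT := hC.thin fun e => lt_irrefl (r x₀) (e.ge (mem_univ x₀))
  refine ⟨r x₀, (reg_dense X).mono ?_⟩
  rintro y ⟨d, hd⟩
  suffices e : d = r x₀ from e ▸ hd
  obtain ⟨W', Ω', h', φ', hy, M'⟩ := hd
  have hO := M'.isOpen.preimage hc
  refine le_antisymm (not_lt.1 fun hlt => ?_) ?_
  · have h1 : φ' '' W' = Ω' := M'.image.trans (ext fun z => ⟨fun a => a.1, fun a =>
      ⟨a, fun i => i.elim0⟩⟩)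
    refine P277.H762.not_cv_nhds (by simpa using hlt)
      (M'.isOpen'.mem_nhds (h1 ▸ mem_image_of_mem φ' hy))
      ((cv_man hO (fun x hx => an_q hq M' hx) (r x₀)).mono ?_)
    rw [← h1]
    rintro _ ⟨y', a, rfl⟩
    obtain ⟨x, rfl⟩ := hs y'
    exact ⟨x, ⟨a, (hr M' x a).trans_le (h0 x)⟩, rfl⟩
  · obtain ⟨x, rfl⟩ := hs y
    obtain ⟨z, a, b⟩ := hT.2.inter_open_nonempty _ hO ⟨x, hy⟩
    exact (not_lt.1 (show ¬ r z < r x₀ from b)).trans ((hr M' z a).ge.trans (rk_le_right _))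

end Vale.Agent.P281Z.Ri
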