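import Vale.Agent.P281Z.Ri.Qa
import Vale.Agent.P281Z.An.Reml

/-!
# P281, block R1: the image of a relative linear system is a complex space
-/

open scoped Manifold ContDiff Topology
open Set Filter Function
open Vale.Agent.P272.K (Cm Chart At)
open Vale.Agent.P285.H281.FD (Bd)
open Vale.Agent.P277 (CSp IsModel IsLBx RelAmple)
open Vale.Agent.P277.H60.Z (XH)
open Vale.Agent.P277Z (Hol)

noncomputable section

namespace Vale.Agent.P281Z.Ri.Q

variable {n p : ℕ} {V : Mf n} {Y : Mf p} {f : V.X → Y.X} {C : Cvr Y} {S : LS f C} {α : C.ι}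
  {j : Fin (C.k α)} {e : Chart p Y.X} {w : Pt S} {a : Pt S → ℂ}

/-- holomorphic functions on the quotient -/
def HolQ (a : Pt S → ℂ) (w : Pt S) : Prop := ∀ α j e, w ∈ Om S α j e → Fc α j e a w

/-- reindexing -/
def R (k p : ℕ) (u : Fin k ⊕ Fin p → ℂ) : Cm (k + p) := fun c => u (finSumFinEquiv.symm c)

/-- the inverse reindexing -/
def R' (k p : ℕ) (v : Cm (k + p)) : Fin k ⊕ Fin p → ℂ := fun c => v (finSumFinEquiv c)

theorem R'_R {k p : ℕ} (u : Fin k ⊕ Fin p → ℂ) : R' k p (R k p u) = u :=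
  funext fun c => congrArg u (finSumFinEquiv.symm_apply_apply c)

theorem an_R {k p : ℕ} (u : Fin k ⊕ Fin p → ℂ) : AnalyticAt ℂ (R k p) u :=
  AnalyticAt.pi fun _ => an_proj _ _

theorem an_R' {k p : ℕ} (v : Cm (k + p)) : AnalyticAt ℂ (R' k p) v :=
  AnalyticAt.pi fun _ => an_proj _ _

/-- the target of the affine coordinates -/
def Dm (α : C.ι) (e : Chart p Y.X) : Set (Cm (C.k α + p)) :=
  (fun v c => R' _ _ v (.inr c)) ⁻¹' (e.target ∩ e.symm ⁻¹' C.U α)

theorem cont_b {k p : ℕ} : Continuous fun (v : Cm (k + p)) (c : Fin p) => R' k p v (.inr c) :=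
  continuous_pi fun _ => continuous_apply _

theorem dm_open : IsOpen (Dm α e) := (e.symm.isOpen_inter_preimage (C.opn α)).preimage cont_b

theorem b_T (w : Pt S) : (fun c => R' _ _ (R _ _ (T α j e w)) (.inr c)) = e (hh w) := by
  rw [R'_R]
  rfl

theorem mem_dm (h : w ∈ Om S α j e) : R _ _ (T α j e w) ∈ Dm α e := by
  rw [Dm, mem_preimage, b_T]
  exact ⟨e.map_source h.2.2, by rw [mem_preimage, e.left_inv h.2.2]; exact h.1.1⟩

variable (hf : HolM n p f)
include hf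

theorem holQ_of (h : w ∈ Om S α j e) (k : Fc α j e a w) : HolQ a w := fun _ _ _ h' =>
  k.trans hf h h'

theorem proper {K : Set (Cm (C.k α + p))} (h1 : K ⊆ Dm α e) (h2 : IsCompact K) :
    IsClosed {w | w ∈ Om S α j e ∧ R _ _ (T α j e w) ∈ K} := by
  refine isClosed_iff_frequently.2 fun w hw => ?_
  have a1 : IsCompact (e.symm '' ((fun v c => R' _ _ v (.inr c)) '' K)) :=
    (h2.image cont_b).image_of_continuousOn
      (e.continuousOn_symm.mono (image_subset_iff.2 fun v c => (h1 c).1))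
  obtain ⟨_, ⟨v, a2, rfl⟩, a3⟩ := a1.isClosed.mem_of_frequently_of_tendsto (f := hh)
    (hw.mono fun z c => ⟨_, ⟨_, c.2, b_T z⟩, e.left_inv c.1.2.2⟩) (hh_cont hf).continuousAt
  have a4 : hh w ∈ C.U α := a3 ▸ (h1 a2).2
  have a5 : At e (hh w) := ⟨hw.exists.choose_spec.1.2.1, a3 ▸ e.map_target (h1 a2).1⟩
  obtain ⟨i, hi⟩ := ψ_nz a4
  obtain ⟨M, hM⟩ := h2.isBounded.exists_norm_le
  have a6 : w ∈ Om S α i e := ⟨⟨a4, hi⟩, a5⟩
  have a7 : 1 ≤ M * ‖ψ α j w / ψ α i w‖ := by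
    refine isClosed_Ici.mem_of_frequently_of_tendsto (f := fun z => M * ‖T α i e z (.inl j)‖)
      ((hw.and_eventually ((om_open hf).eventually_mem a6)).mono fun z c => ?_)
      (continuousAt_const.mul (continuousAt_pi.1 (T_cont hf a6) _).norm)
    have b1 := (norm_le_pi_norm (R _ _ (T α j e z)) (finSumFinEquiv (.inl i))).trans (hM _ c.1.2)
    have b2 : R _ _ (T α j e z) (finSumFinEquiv (.inl i)) = ψ α i z / ψ α j z :=
      congrFun (R'_R (T α j e z)) (.inl i)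
    calc (1 : ℝ) = ‖ψ α i z / ψ α j z‖ * ‖ψ α j z / ψ α i z‖ := by
          rw [← norm_mul, div_mul_div_cancel₀ c.1.1.1.2, div_self c.2.1.2, norm_one]
      _ ≤ _ := mul_le_mul_of_nonneg_right (b2 ▸ b1) (norm_nonneg _)
  have a8 : w ∈ Om S α j e := ⟨⟨a4, fun c => by
    rw [c, zero_div, norm_zero, mul_zero] at a7
    exact absurd a7 (by norm_num)⟩, a5⟩
  exact ⟨a8, h2.isClosed.mem_of_frequently_of_tendsto (hw.mono fun _ c => c.2)
    ((an_R _).continuousAt.comp (T_cont hf a8))⟩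

theorem prp : P277Z.Pj.Prp n (qq S ⁻¹' Om S α j e) (fun x => R _ _ (T α j e (qq S x))) (Dm α e) where
  isOpen := (om_open hf).preimage qq_cont
  isOpen' := dm_open
  hol _ h _ := hol_T hf h _
  maps _ h := mem_dm h
  proper _ h1 h2 := ((proper hf h1 h2).preimage qq_cont).isCompact

theorem emb {O : Set (Pt S)} (hO : O ⊆ Om S α j e) :
    Topology.IsEmbedding (O.domRestrict fun w => R _ _ (T α j e w)) := by
  have c : ∀ w ∈ Om S α j e, ContinuousAt (fun w => R _ _ (T α j e w)) w := fun w h =>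
    (an_R _).continuousAt.comp (T_cont hf h)
  have inj : ∀ w ∈ Om S α j e, ∀ w' ∈ Om S α j e, R _ _ (T α j e w) = R _ _ (T α j e w') → w = w' :=
    fun w h w' h' k => T_inj h h' (by rw [← R'_R (T α j e w), k, R'_R])
  refine ⟨Topology.isInducing_iff_nhds.2 fun w => le_antisymm
    (tendsto_iff_comap.1 ((c w (hO w.2)).comp continuousAt_subtype_val)) ?_,
    fun w w' k => Subtype.ext (inj _ (hO w.2) _ (hO w'.2) k)⟩
  obtain ⟨K, k1, k2, k3⟩ := local_compact_nhds (dm_open.mem_nhds (mem_dm (hO w.2)))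
  rw [nhds_subtype_eq_comap, ← tendsto_iff_comap]
  refine (proper (j := j) hf k2 k3).isCompact.tendsto_nhds_of_unique_mapClusterPt
    ((tendsto_comap.eventually k1).mono fun z d => ⟨hO z.2, d⟩) fun z d k => ?_
  exact inj _ d.1 _ (hO w.2) (eq_of_nhds_neBot
    ((k.continuousAt_comp (c z d.1)).clusterPt.mono tendsto_comap))

theorem model (w : Pt S) : ∃ (N k : ℕ) (O : Set (Pt S)) (Ω : Set (Cm N)) (h : Fin k → Cm N → ℂ)
    (φ : Pt S → Cm N), w ∈ O ∧ IsModel HolQ O Ω h φ := by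
  obtain ⟨α, j, e, h⟩ := exists_om w
  obtain ⟨m, g, g1, g2⟩ := Ana.reml n V.X _ _ _ _ (prp (S := S) (j := j) hf) _ (mem_dm h)
  obtain ⟨Ω, o1, o2, o3⟩ := eventually_nhds_iff.1
    ((eventually_all.2 fun i => (g1 i).eventually_analyticAt).and g2)
  have c : ContinuousOn (fun w => R _ _ (T α j e w)) (Om S α j e) := fun w h =>
    ((an_R _).continuousAt.comp (T_cont hf h)).continuousWithinAt
  refine ⟨_, m, Om S α j e ∩ (fun w => R _ _ (T α j e w)) ⁻¹' Ω, Ω, g, fun w => R _ _ (T α j e w),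
    ⟨h, o3⟩, c.isOpen_inter_preimage (om_open hf) o2, o2, fun i z k => (o1 z k).1 i,
    Set.ext fun z => ⟨?_, fun k => ?_⟩, emb hf inter_subset_left, fun z k a => ⟨fun d => ?_, ?_⟩⟩
  · rintro ⟨z, k, rfl⟩
    exact ⟨k.2, (o1 _ k.2).2.1 ⟨z.out, by rw [mem_preimage, qq_out]; exact k.1,
      congrArg (fun w => R _ _ (T α j e w)) (qq_out z)⟩⟩
  · obtain ⟨x, k1, rfl⟩ := (o1 _ k.1).2.2 k.2
    exact ⟨qq S x, ⟨k1, k.1⟩, rfl⟩
  · obtain ⟨A, d1, d2⟩ := d α j e k.1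
    exact ⟨fun v => A (R' _ _ v), AnalyticAt.fun_comp (by rwa [R'_R]) (an_R' _),
      d2.mono fun y d => d.trans (congrArg A (R'_R _).symm)⟩
  · rintro ⟨A, d1, d2⟩
    exact holQ_of hf k.1 ⟨fun u => A (R _ _ u), AnalyticAt.fun_comp d1 (an_R _), d2⟩

variable (S) in
/-- the complex space -/
def sp : CSp where
  pt := Pt S
  t2 := t2 hf
  Hol := HolQ
  model := model hf

variable (S) in
omit hf in
/-- the tautological bundle -/
def tb : Bd (Pt S) where
  ι := Σ α, Fin (C.k α)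
  U a := {w | hh w ∈ C.U a.1 ∧ ψ a.1 a.2 w ≠ 0}
  g a a' w := ψ a'.1 a'.2 w / ψ a.1 a.2 w

theorem tb_lb : IsLBx (sp S hf) (tb S) where
  isOpen _ := isOpen_iff_eventually.2 fun _ h => nz_near hf h.1 h.2
  cover w := let ⟨α, j, _, h⟩ := exists_om w; ⟨⟨α, j⟩, h.1⟩
  holo _ _ _ h h' _ _ _ k := fc_ratio' hf k h.1 h.2 h'.1 _
  ne_zero _ _ _ h h' := div_ne_zero h'.2 h.2
  cocycle _ _ _ _ _ h _ := by
    change _ / _ * (_ / _) = _ / _
    rw [mul_comm, div_mul_div_cancel₀ h.2]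

theorem tb_amp : RelAmple (sp S hf) (XH p Y.X) hh (tb S) := fun y => by
  obtain ⟨α, hα⟩ := C.cov y
  refine ⟨C.U α, 1, C.k α, Fin.cons (fun _ _ => 0) fun l a w => ψ α l w / ψ a.1 a.2 w, C.opn α, hα,
    le_rfl, fun l => ?_, fun w a h h' => ?_,
    fun w w' a a' h1 h2 h3 h4 h5 => by_contra fun k => h3 ?_, fun w a l => ?_⟩
  · refine Fin.cases ⟨fun _ w _ _ => P277.hol_const (X := sp S hf) 0 w,
      fun _ _ _ _ _ _ => (mul_zero _).symm⟩ (fun l => ⟨fun _ _ h h' _ _ _ k =>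
        fc_ratio' hf k h'.1 h'.2 h l, fun a a' w _ _ h => ?_⟩) l
    change ψ α l w / _ = (_ / _) ^ 1 * (ψ α l w / _)
    rw [pow_one, mul_comm, div_mul_div_cancel₀ h.2]
  · obtain ⟨l, hl⟩ := ψ_nz h
    exact ⟨l.succ, div_ne_zero hl h'.2⟩
  · refine (eq_of_cross h2.symm h1 fun l m => ?_).symm
    have : ψ α l w / ψ a.1 a.2 w * (ψ α m w' / ψ a'.1 a'.2 w') =
        ψ α m w / ψ a.1 a.2 w * (ψ α l w' / ψ a'.1 a'.2 w') :=
      by_contra fun c => k ⟨l.succ, m.succ, c⟩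
    rwa [div_mul_div_comm, div_mul_div_comm, div_left_inj' (mul_ne_zero h4.2 h5.2)] at this
  · refine Fin.cases (fun _ _ h => absurd rfl h) (fun j h1 h2 h3 g hg => ?_) l
    have h4 : ψ α j w ≠ 0 := fun c => h3 (by
      change ψ α j w / _ = 0
      rw [c, zero_div])
    have he : At (chartAt (Cm p) (hh w)) (hh w) := P277Z.Slc.at_chartAt _
    obtain ⟨A, a1, a2⟩ := hg α j _ ⟨⟨h1, h4⟩, he⟩
    have key : ∀ z : Pt S, ψ a.1 a.2 z ≠ 0 → T α j (chartAt (Cm p) (hh w)) z =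
        Sum.elim (fun i => ψ α i z / ψ a.1 a.2 z / (ψ α j z / ψ a.1 a.2 z))
          (chartAt (Cm p) (hh w) (hh z)) := fun z c => by
      simp only [div_div_div_cancel_right₀ c, T]
    refine ⟨p, fun c y => chartAt (Cm p) (hh w) y c,
      fun u => A (Sum.elim (fun i => u.2 i.succ) u.1), fun c => hol_chart he c,
      AnalyticAt.fun_comp (g := A) (by rw [key w h2.2] at a1; exact a1)
        (AnalyticAt.pi fun c => Sum.casesOn c (fun i => (an_proj _ _).comp analyticAt_snd)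
          fun c => (an_proj _ _).comp analyticAt_fst), ?_⟩
    filter_upwards [a2, nz_near hf h2.1 h2.2] with z c d
    rw [c, key z d.2]
    rfl

theorem qs : Qs S (sp S hf) (qq S) hh where
  cont := qq_cont
  surj := qq_surj
  rel _ _ := qq_eq
  comm _ := rfl
  hh _ := ⟨(hh_cont hf).continuousAt, fun _ hg _ _ _ h => fc_base hf h.2 hg⟩
  f1 x a h := by
    obtain ⟨α, j, e, k⟩ := exists_om (qq S x)
    obtain ⟨b, hb⟩ := S.lb.cover x
    have k' := (om_iff hb).1 k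
    obtain ⟨A, a1, a2⟩ := h α b j e k'
    refine ⟨fun w => A (T α j e w), holQ_of hf k ⟨A, T_eq k' ▸ a1, .of_forall fun _ => rfl⟩, ?_⟩
    filter_upwards [a2, ad_near hf k'] with z c d
    rw [c, T_eq d]
  f2 x a h α b j e k := by
    obtain ⟨A, a1, a2⟩ := h α j e ((om_iff k.fr).2 k)
    refine ⟨A, T_eq k ▸ a1, ?_⟩
    filter_upwards [qq_cont.continuousAt.eventually a2, ad_near hf k] with z c d
    rw [c, T_eq d]
  amp := ⟨tb S, tb_lb hf, tb_amp hf⟩

end Q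

theorem qsp : QSP := fun _ _ _ _ _ _ S hf => ⟨Q.sp S hf, _, _, Q.qs hf⟩

end Vale.Agent.P281Z.Ri
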