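import Vale.Agent.P281Z.Ri.Defs
import Vale.Agent.P281Z.Pb.Rela
import Vale.Agent.P281Z.Rs.Out
import Vale.Agent.P281Z.Rs.Zero
import Vale.Agent.P277Z.GH.Res0

/-!
# P281, block R1: resolution of a compact complex space
-/

open scoped Manifold ContDiff Topology ComplexOrder
open Set Filter
open Vale.Agent.P272.K
open Vale.Agent.P285.H281.FD (Bd)
open Vale.Agent.P284Z (levi psh_of_levi)
open Vale.Agent.P284Y.Lib (levi_hol levi_sub levi_const_mul levi_congr exists_levi_bound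
  gsq_nonneg two_le_inf)
open Vale.Agent.P277 (CSp IsReg HolAt HolMap IsLBx RelAmple)
open Vale.Agent.P277.H60.Z (XH)
open Vale.Agent.P277Z (Hol at_chart)
open Vale.Agent.P277Z.St (Sp)
open Vale.Agent.P277Z.Slc (LEq isClosed_of_leq tendsto_symm)
open Vale.Agent.P277Z.Slc.Dv (dense_compl)
open Vale.Agent.P277Z.Pos (SPshAt FlatAt PosAt nsq rb kah)
open Vale.Agent.P277Z.Hl.PosbH (levi_pos sp_cont flat_of)
open Vale.Agent.P277Z.GH (Fam exists_fam)
open Vale.Agent.P277Z.GH.Ka (mem_Ω an_model lift cover)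
open Vale.Agent.P281Z.Rs.Kahr (flat_cont flat_comb flat_comp quo pots)

noncomputable section

namespace Vale.Agent.P281Z.Ri

namespace Resc

variable {n m : ℕ} {X : CSp} {Ψ : X.pt → ℝ} {g : Fin m → X.pt → ℂ}

/-- a large multiple of a strictly plurisubharmonic function dominates -/
theorem big {c : Cm n → X.pt} {z₀ : Cm n} (hc : HolAt X c z₀) (hΨ : Sp X Ψ (c z₀))
    (hg : ∀ j, X.Hol (g j) (c z₀)) : ∃ k₀ : ℕ, ∀ᶠ z in 𝓝 z₀, ∀ k : ℕ, k₀ ≤ k →
      ContDiffAt ℝ 2 (fun z => k * Ψ (c z) - ∑ j, ‖g j (c z)‖ ^ 2) z ∧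
      ∀ w, 0 ≤ levi (fun z => k * Ψ (c z) - ∑ j, ‖g j (c z)‖ ^ 2) z w := by
  obtain ⟨N, k, V, Ω, h, φ, ψ, m1, m2, m3, m4⟩ := hΨ
  obtain ⟨Γ, g1, g2⟩ := lift m2 m1 (F := fun y j => g j y) hg
  have h1 : ∀ᶠ t in 𝓝 (φ (c z₀)), (ContDiffAt ℝ 2 ψ t ∧ ∀ w, w ≠ 0 → 0 < levi ψ t w) ∧
      ContDiffAt ℝ 2 (fun t => ∑ j, ‖Γ t j‖ ^ 2) t := by
    filter_upwards [m2.isOpen'.mem_nhds (mem_Ω m2 m1), g1.eventually_analyticAt] with t a1 a3
    exact ⟨⟨(m3 t a1).1.of_le two_le_inf, fun w hw =>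
      levi_pos ((m3 t a1).1.of_le two_le_inf) (m3 t a1).2 hw⟩, ContDiffAt.sum fun j _ =>
        ((analyticAt_pi_iff.1 a3 j).restrictScalars (𝕜 := ℝ)).contDiffAt.norm_sq ℝ⟩
  obtain ⟨K, k1, k2, k3⟩ := local_compact_nhds h1
  obtain ⟨M, hM0, hM⟩ := exists_levi_bound k3 (fun t ht => (k2 ht).1) fun t ht => (k2 ht).2
  have h2 := an_model m2 m1 hc
  refine ⟨⌈M⌉₊, ?_⟩
  filter_upwards [h2.eventually_analyticAt, h2.continuousAt.eventually k1,
    (hc.1.eventually (g2.and (m2.isOpen.mem_nhds m1))).eventually_nhds] with z a1 a2 a3 k hk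
  have b1 : ContDiffAt ℝ 2 (fun t => k * ψ t) (φ (c z)) := contDiffAt_const.mul (k2 a2).1.1
  have b3 : (fun z => k * Ψ (c z) - ∑ j, ‖g j (c z)‖ ^ 2) =ᶠ[𝓝 z]
      fun z => (fun t => k * ψ t - ∑ j, ‖Γ t j‖ ^ 2) (φ (c z)) :=
    a3.mono fun z hz => by simp only [← hz.1, m4 _ hz.2]
  refine ⟨ContDiffAt.congr_of_eventuallyEq (ContDiffAt.comp (f := fun z => φ (c z)) z
    (b1.sub (k2 a2).2) (a1.restrictScalars (𝕜 := ℝ)).contDiffAt) b3, fun w => ?_⟩
  rw [levi_congr b3, levi_hol a1 (b1.sub (k2 a2).2), levi_sub b1 (k2 a2).2,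
    levi_const_mul (k2 a2).1.1]
  set w' := fderiv ℂ (fun z => φ (c z)) z w
  have b4 := hM _ a2 w'
  have b5 : 0 ≤ levi ψ (φ (c z)) w' := by
    by_cases h : w' = 0
    · simp [h, levi]
    · exact ((k2 a2).1.2 w' h).le
  have b7 := (le_abs_self _).trans ((le_add_of_nonneg_left gsq_nonneg).trans b4)
  nlinarith [mul_le_mul_of_nonneg_right (Nat.ceil_le.1 hk) b5]

variable {V : Mf n} {π : V.X → X.pt} {y : V.X}

/-- the local potentials -/
theorem loc (hπ : Continuous π) (hol : ∀ a, X.Hol a (π y) → Hol n (fun z => a (π z)) y)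
    {h : V.X → ℝ} (hh : SPshAt n h y) (hΨ : Sp X Ψ (π y)) (hg : ∀ j, X.Hol (g j) (π y)) :
    ∃ k₀ : ℕ, ∀ᶠ z in 𝓝 y, ∀ k : ℕ, k₀ ≤ k →
      SPshAt n (fun x => k * Ψ (π x) + (h x - ∑ j, ‖g j (π x)‖ ^ 2)) z := by
  obtain ⟨e, he, δ, hδ, S, hS, h1, h2⟩ := hh
  obtain ⟨k₀, hk⟩ := big (c := fun z => π (e.symm z)) (z₀ := e y) (Ψ := Ψ) (g := g)
    ⟨hπ.continuousAt.comp (e.continuousAt_symm he.mem_target), fun a ha =>
      hol a (by simpa only [he.left_inv] using ha) e he⟩ (by rwa [he.left_inv]) (by rwa [he.left_inv])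
  refine ⟨k₀, ?_⟩
  filter_upwards [(e.continuousAt he.2).eventually (hk.and hS).eventually_nhds,
    e.open_source.mem_nhds he.2] with z b1 b3 k hk
  refine ⟨e, ⟨he.1, b3⟩, δ, hδ, _, b1, ?_, ?_⟩
  · refine ContinuousOn.congr (f := fun z => (k * Ψ (π (e.symm z)) -
      ∑ j, ‖g j (π (e.symm z))‖ ^ 2) + h (e.symm z)) (ContinuousOn.add (fun t ht =>
        (ht.1 k hk).1.continuousAt.continuousWithinAt) (h1.mono fun t ht => ht.2)) fun t _ => ?_
    dsimp only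
    ring
  · have h3 : ContinuousOn (fun z => h (e.symm z) - δ * nsq z) S :=
      h1.sub (by unfold nsq; fun_prop)
    refine ((psh_of_levi fun t ht => ht.1 k hk).add (h2.mono fun t ht => ht.2)
      (.of_cont fun t ht => (ht.1 k hk).1.continuousAt.continuousWithinAt)
      (.of_cont (h3.mono fun t ht => ht.2))).congr fun t _ => ?_
    dsimp only
    ring

theorem flat_sum {ι : Type} (s : Finset ι) (c : ι → ℝ) {u : ι → V.X → ℝ}
    (h : ∀ l, FlatAt n (u l) y) : FlatAt n (fun x => ∑ l ∈ s, c l * u l x) y := by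
  classical
  induction s using Finset.induction_on with
  | empty => exact flat_of (F := fun _ => 1) (fun _ _ => analyticAt_const) one_ne_zero (by simp)
  | insert a s ha ih => exact flat_comb (c a) (h a) ih (.of_forall fun _ => Finset.sum_insert ha)

/-- the Kähler metric -/
theorem core {r : ℕ} {G : Fin r → Set V.X} {c : Fin r → ℝ} {v : V.X → ℝ} {ι : Type}
    {U : ι → Set V.X} {ψ : ι → V.X → ℝ} (hU : ∀ i, IsOpen (U i)) (hc : ∀ x, ∃ i, x ∈ U i)
    (hf : ∀ i j, ∀ x ∈ U i, x ∈ U j → FlatAt n (fun x => ψ i x - ψ j x) x)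
    (hP : ∀ y, ∃ (ζ : Fin r → V.X → ℂ) (s : V.X → ℝ), (∀ l, LEq n (G l) y (ζ l)) ∧
      (∀ i, y ∈ U i → ∃ k₀ : ℕ, ∀ᶠ z in 𝓝 y, ∀ k : ℕ, k₀ ≤ k →
        SPshAt n (fun x => k * ψ i x + s x) z) ∧
      ∀ᶠ z in 𝓝 y, (∀ l, z ∉ G l) → s z = v z - 2 * ∑ l, c l * Real.log ‖ζ l z‖) : V.Kah := by
  choose ζ s a1 a2 a4 using hP
  choose i hi using hc
  choose k₀ hk using fun y => a2 y _ (hi y)
  choose O hz hO hy using fun y => eventually_nhds_iff.1 ((hk y).and ((a4 y).and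
    ((eventually_all.2 fun l => (a1 y l).near).and ((hU _).mem_nhds (hi y)))))
  obtain ⟨T, hT⟩ := isCompact_univ.elim_finite_subcover O hO fun y _ => mem_iUnion.2 ⟨y, hy y⟩
  have hG : ∀ l x, ∃ ζ, LEq n (G l) x ζ := fun l x => ⟨_, a1 x l⟩
  choose t ht using fun l => quo (hG l) fun y => ζ y l
  have ht' := fun l a b z (ha : z ∈ O a) (hb : z ∈ O b) =>
    ht l a b z ((hz a z ha).2.2.1 l) ((hz b z hb).2.2.1 l)
  set k := T.sup k₀
  let u : T → V.X → ℝ := fun a x => k * ψ (i a) x + s a x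
  let F : T → T → V.X → ℝ := fun a b z =>
    k * (ψ (i a) z - ψ (i b) z) + ∑ l, -c l * Real.log (‖t l a b z‖ ^ 2)
  have hu : ∀ a : T, ∀ z ∈ O a, SPshAt n (u a) z := fun a z h =>
    (hz a z h).1 k (Finset.le_sup a.2)
  have g3 : ∀ (a b : T) z, z ∈ O a → z ∈ O b → (∀ l, z ∉ G l) → u a z - u b z = F a b z :=
    fun a b z ha hb hE => by
    have h2 : ∀ l, Real.log ‖ζ a l z‖ = Real.log ‖t l a b z‖ + Real.log ‖ζ b l z‖ := fun l => by
      rw [(ht' l a b z ha hb).2.2.1, norm_mul, Real.log_mul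
        (norm_ne_zero_iff.2 (ht' l a b z ha hb).2.1)
        (norm_ne_zero_iff.2 (mt ((hz b z hb).2.2.1 l).mem.1 (hE l)))]
    simp only [u, F]
    rw [(hz a z ha).2.1 hE, (hz b z hb).2.1 hE]
    simp only [h2, Real.log_pow, mul_add, neg_mul, Finset.sum_add_distrib, Finset.sum_neg_distrib,
      mul_left_comm _ ((2 : ℕ) : ℝ), ← Finset.mul_sum]
    push_cast
    ring
  have f2 : ∀ (a b : T) z, z ∈ O a → z ∈ O b → FlatAt n (F a b) z := fun a b z ha hb =>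
    flat_comb k (hf (i a) (i b) z (hz a z ha).2.2.2 (hz b z hb).2.2.2) (flat_sum _ _ fun l =>
      flat_of (ht' l a b z ha hb).1 (ht' l a b z ha hb).2.1 (.of_forall fun _ => rfl))
      (.of_forall fun _ => rfl)
  have hD : Dense (⋂ l, (G l)ᶜ) := dense_iInter_of_isOpen
    (fun l => (isClosed_of_leq (hG l)).isOpen_compl) fun l => dense_compl (hG l)
  have g4 : ∀ (a b : T) z, z ∈ O a → z ∈ O b → u a z - u b z = F a b z := fun a b z ha hb => by
    refine tendsto_nhds_unique_of_frequently_eq ((sp_cont (hu a z ha)).sub (sp_cont (hu b z hb)))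
      (flat_cont (f2 a b z ha hb)) (((mem_closure_iff_frequently.1 (hD z)).and_eventually
        (((hO a).inter (hO b)).mem_nhds ⟨ha, hb⟩)).mono fun w hw => ?_)
    exact g3 a b w hw.2.1 hw.2.2 (mem_iInter.1 hw.1)
  have g5 : ∀ (a b : T), ∀ z ∈ O a, z ∈ O b → FlatAt n (fun x => u a x - u b x) z :=
    fun a b z ha hb => flat_comb 0 (f2 a b z ha hb) (f2 a b z ha hb) (by
      filter_upwards [(hO a).mem_nhds ha, (hO b).mem_nhds hb] with w h1 h2
      rw [g4 a b w h1 h2, zero_mul, zero_add])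
  have hcov : univ ⊆ ⋃ a : T, O a := fun y h => by
    obtain ⟨a, h1, h2⟩ := mem_iUnion₂.1 (hT h)
    exact mem_iUnion.2 ⟨⟨a, h1⟩, h2⟩
  obtain ⟨γ, O', -, o2, o3⟩ := rb n V.X T (fun a => O a) u univ isCompact_univ (fun a => hO a)
    hcov hu g5
  obtain ⟨χ, hχ, -⟩ := kah n V.X T (fun a => O a) (fun a x => u a x + γ x) (fun a => hO a)
    (fun x => mem_iUnion.1 (hcov (mem_univ x))) (fun a z => o3 a z (o2 (mem_univ z)))
    fun a b z ha hb => by simpa only [add_sub_add_right_eq_sub] using g5 a b z ha hb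
  exact ⟨χ, hχ⟩

theorem kah_of (hπ : Continuous π) (hol : ∀ y a, X.Hol a (π y) → Hol n (fun z => a (π z)) y)
    {r : ℕ} {G : Fin r → Set V.X} {c : Fin r → ℝ} {v : V.X → ℝ}
    (hP : ∀ y, ∃ (ζ : Fin r → V.X → ℂ) (m : ℕ) (g : Fin m → X.pt → ℂ) (h : V.X → ℝ),
      (∀ l, LEq n (G l) y (ζ l)) ∧ (∀ i, X.Hol (g i) (π y)) ∧ SPshAt n h y ∧
      ∀ᶠ z in 𝓝 y, (∀ l, z ∉ G l) →
        h z = v z + ∑ i, ‖g i (π z)‖ ^ 2 - 2 * ∑ l, c l * Real.log ‖ζ l z‖)
    (p : ℕ) (Y : Mf p) (h : X.pt → Y.X) (P : Bd X.pt) (hh : ∀ z, HolMap X (XH p Y.X) h z)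
    (hL : IsLBx X P) (hA : RelAmple X (XH p Y.X) h P) (hY : Y.Kah) : V.Kah := by
  obtain ⟨w, hw⟩ := hY
  choose φ hφ using pots hw
  choose U h1 h2 h3 using fun x => eventually_nhds_iff.1 (hφ x)
  obtain ⟨ψ, t, b1, -, b3⟩ := cover (X := XH p Y.X) hh hL hA h2 (fun x => ⟨x, h3 x⟩) (u := φ)
    fun a x hx => Pb.Rela.sp_of_pos (mem_of_superset ((h2 a).mem_nhds hx) fun x hx e he =>
      ⟨(h1 a x hx e he).1, (h1 a x hx e he).2 ▸ hw.posDef e x he⟩)
  have hM : HolM n p fun y => h (π y) := fun y => HolA.of_hol ((hh _).1.comp hπ.continuousAt)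
    (at_chart _) fun a => hol y _ ((hh _).2 (fun w => chartAt (Cm p) (h (π y)) w a)
      (hol_chart (at_chart _) a))
  refine core (G := G) (c := c) (v := v) (ι := P.ι × Y.X) (U := fun q => π ⁻¹' {x | ∀ᶠ x' in 𝓝 x,
      x' ∈ P.U q.1 ∧ h x' ∈ U q.2 ∧ Sp X (fun x => ψ q.1 x + t * φ q.2 (h x)) x'})
    (ψ := fun q y => ψ q.1 (π y) + t * φ q.2 (h (π y)))
    (fun _ => isOpen_setOfPred_eventually_nhds.preimage hπ)
    (fun y => let ⟨i, a, k⟩ := b3 (π y) t le_rfl; ⟨(i, a), k⟩) (fun q q' y hy hy' => ?_) fun y => ?_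
  · have k := hy.self_of_nhds
    have k' := hy'.self_of_nhds
    refine flat_comb t (flat_comp hM (u := fun x => φ q.2 x - φ q'.2 x) fun e he =>
      ⟨(h1 _ _ k.2.1 e he).1.sub (h1 _ _ k'.2.1 e he).1, ?_⟩)
      (flat_of (hol y _ (hL.holo _ _ _ k.1 k'.1)) (hL.ne_zero _ _ _ k.1 k'.1)
        (.of_forall fun _ => rfl)) ?_
    · rw [cHess_sub ((h1 _ _ k.2.1 e he).1.of_le two_le_inf)
        ((h1 _ _ k'.2.1 e he).1.of_le two_le_inf), (h1 _ _ k.2.1 e he).2, (h1 _ _ k'.2.1 e he).2,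
        sub_self]
    · filter_upwards [hπ.continuousAt.eventually (Eventually.and hy hy')] with x a
      rw [b1 _ _ _ a.1.1 a.2.1]
      ring
  · obtain ⟨ζ, m, g, s, a1, a2, a3, a4⟩ := hP y
    refine ⟨ζ, fun x => s x - ∑ j, ‖g j (π x)‖ ^ 2, a1, fun q hq =>
      loc hπ (hol y) a3 hq.self_of_nhds.2.2 a2, a4.mono fun z a b => ?_⟩
    simp only [a b]
    ring

theorem pos {I : Fam X} (o : P277Z.Hir.Out I.base n univ) (y : o.Y) :
    ∃ (ζ : Fin o.r → o.Y → ℂ) (m : ℕ) (g : Fin m → X.pt → ℂ) (h : o.Y → ℝ),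
    (∀ l, LEq n (o.G l) y (ζ l)) ∧ (∀ i, X.Hol (g i) (o.π y)) ∧ SPshAt n h y ∧
    ∀ᶠ z in 𝓝 y, (∀ l, z ∉ o.G l) → h z = o.v z + ∑ i, ‖g i (o.π z)‖ ^ 2 -
      2 * ∑ l, (o.c l : ℝ) * Real.log ‖ζ l z‖ := by
  obtain ⟨m, g, ε, U, h, a1, a2, a3, a4, a5, a6, a7⟩ := o.pos y
  have he := at_chart (n := n) y
  refine ⟨_, m, g, fun x => h (chartAt (Cm n) y x), fun l => Rs.Ou.leq_lab he (o.snc y l), a1,
    ⟨_, he, ε, a2, _, inter_mem (a3.mem_nhds a4) (chart_target_mem_nhds (Cm n) y),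
      (a5.mono inter_subset_left).congr fun t ht => by
        simp only [(chartAt (Cm n) y).right_inv ht.2],
      (a6.mono inter_subset_left).congr fun t ht => by
        simp only [(chartAt (Cm n) y).right_inv ht.2, nsq]⟩, a7.mono fun z c hz => ?_⟩
  refine (c hz).trans ?_
  congr 2
  refine Finset.sum_congr rfl fun l _ => ?_
  cases o.lab y l <;> simp

theorem zero [PreconnectedSpace X.pt] (hX : Dense {z | IsReg 0 X z}) :
    ∃ (W : Mf 0) (π : W.X → X.pt) (B : Set X.pt), Rc X W π B := by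
  have : Subsingleton X.pt := ⟨fun a b => by
    obtain ⟨x, V, Ω, h, φ, k1, k2⟩ := hX.nonempty_iff.2 ⟨a⟩
    have e : V = {x} := eq_singleton_iff_unique_mem.2
      ⟨k1, fun y hy => k2.injOn hy k1 (Subsingleton.elim _ _)⟩
    have e' : ({x} : Set X.pt) = univ :=
      IsClopen.eq_univ ⟨isClosed_singleton, e ▸ k2.isOpen⟩ ⟨x, rfl⟩
    exact (e'.ge trivial : a = x).trans (e'.ge trivial : b = x).symm⟩
  have : DiscreteTopology (Rs.Zr.mf X.pt).X := ⟨rfl⟩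
  refine ⟨Rs.Zr.mf X.pt, fun x => x, ∅, continuous_of_discreteTopology, fun y a _ e _ =>
    (analyticAt_const (v := a (e.symm (e y)))).congr (.of_forall fun z => by
      rw [Subsingleton.elim z (e y)]), fun x _ => ⟨1, fun _ _ => 1, fun _ => P277.hol_const _ _,
      .of_forall fun _ => by simp⟩, by simp, fun _ => subset_closure id, fun z _ => ⟨z, rfl, fun _ k => k⟩,
    fun y _ => ⟨fun x => x, continuous_of_discreteTopology.continuousAt, rfl,
      .of_forall fun _ => rfl, fun a _ => P277.hol_congr (P277.hol_const (a y) _)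
        (.of_forall fun z => congrArg a (Subsingleton.elim (α := X.pt) z y))⟩,
    fun _ _ _ _ _ _ _ _ => Rs.Zr.kah _⟩

end Resc

open Resc in
theorem resc_of (h : P277Z.Hir.StMain) : RESC := by
  intro w X _ hX
  rcases w.eq_zero_or_pos with rfl | hw
  · exact zero hX
  obtain ⟨I, hI, -⟩ := exists_fam (P277Z.Glc.sing_an hX)
  have hd : Dense I.Zᶜ := hX.mono fun x a b => (hI ▸ b :) a
  obtain ⟨o⟩ := h I.base w univ hw ⟨X.model, fun x hx => not_not.1 fun a => hx (hI.ge a), hd⟩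
    isCompact_univ
  have hol : ∀ y a, X.Hol a (o.π y) → Hol w (fun z => a (o.π z)) y := fun y a ha =>
    .of_chart (at_chart y) (o.hol y a ha)
  refine ⟨{ X := o.Y, cpt := ⟨o.proper univ o.sub isCompact_univ⟩ }, o.π, I.Z, o.cont, hol, I.an, hd,
    o.dense, fun z hz => ?_, fun y hy => ?_, kah_of o.cont hol (pos o)⟩
  · obtain ⟨y, rfl⟩ := o.surj z (o.sub trivial) hz
    exact ⟨y, rfl, fun y' => o.one y y' hz⟩
  · obtain ⟨σ, a1, a2, a3, a4⟩ := o.sec y hy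
    refine ⟨σ, a1, a2, a3, fun a ha => P277.hol_congr (P277.hol_comp a4
      (G := fun z => a ((chartAt (Cm w) y).symm z)) (by rw [a2]; exact ha _ (at_chart y))) ?_⟩
    filter_upwards [a1.eventually (p := (· ∈ (chartAt (Cm w) y).source))
      (by rw [a2]; exact chart_source_mem_nhds (Cm w) y)] with z hz
    exact congrArg a ((chartAt (Cm w) y).left_inv hz).symm

end Vale.Agent.P281Z.Ri
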