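import Vale.Agent.P281Z.Ri.Defs

/-!
# P281, block R1: the number of sections on the general fibres is constant
-/

open scoped Manifold ContDiff Topology
open Set Filter Function
open Vale.Agent.P272.K (Cm Chart At)
open Vale.Agent.P285.H281.FD (Bd IsLB IsSec NZ)
open Vale.Agent.P277.HD (pull)
open Vale.Agent.P277Z (Hol at_chart hol_const)
open Vale.Agent.P277Z.Slc (Ind LEq Snc dd)

noncomputable section

namespace Vale.Agent.P281Z.Ri

namespace RhoH

variable {n p r : ℕ} {X Y : Type} [TopologicalSpace X] [ChartedSpace (Cm n) X]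
  [TopologicalSpace Y] [ChartedSpace (Cm p) Y] [IsManifold 𝓘(ℂ, Cm n) ω X]
  [IsManifold 𝓘(ℂ, Cm p) ω Y] {κ : Type} [Fintype κ] {G : κ → Set Y} {i : X → Y} {c : κ → ℝ}
  {L : Bd X} {t : Fin (r + 1) → L.ι → X → ℂ}

/-- linearly independent sections -/
def LI {X Y κ : Type} (i : X → Y) (G : κ → Set Y) (L : Bd X) {r : ℕ} (t : Fin r → L.ι → X → ℂ) :
    Prop :=
  ∀ μ : Fin r → ℂ, (∀ x b, i x ∈ off G → x ∈ L.U b → ∑ a, μ a * t a b x = 0) → μ = 0

omit [IsManifold 𝓘(ℂ, Cm n) ω X] in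
theorem dd_sum {h : Fin r → X → ℂ} {x : X} (hh : ∀ b, Hol n (h b) x) (μ : Fin r → ℂ)
    {e : Chart n X} (he : At e x) : dd (fun y => ∑ b, μ b * h b y) e x = ∑ b, μ b • dd (h b) e x :=
  (HasFDerivAt.fun_sum fun b _ => ((hh b e he).differentiableAt.hasFDerivAt.const_mul (μ b))).fderiv

omit [IsManifold 𝓘(ℂ, Cm n) ω X] [IsManifold 𝓘(ℂ, Cm p) ω Y] in
theorem li_of_rk (hG : Hyp p G) (hi : Continuous i) (hL : IsLB n L)
    (ht : ∀ a, SecP n p i univ L G c (t a)) (h : Rk n (i ⁻¹' off G) L t) : LI i G L t := by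
  obtain ⟨x, h1, a, h2, h3, h4⟩ := h
  intro μ hμ
  have he := at_chart (n := n) x
  have h5 : ∀ᶠ y in 𝓝 x, ∑ b : Fin r, μ b.succ * (t b.succ a y / t 0 a y) = -μ 0 := by
    filter_upwards [(hG.isOpen.preimage hi).mem_nhds h1, lb_near hL h2,
      ((ht 0).hol a x trivial h2 h1).ne_near h3] with y k1 k2 k3
    have k4 := hμ y a k1 k2
    rw [Fin.sum_univ_succ] at k4
    simp only [← mul_div_assoc, ← Finset.sum_div]
    rw [div_eq_iff k3]
    linear_combination k4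
  have h6 := P277Z.Slc.dd_congr h5 he
  rw [dd_sum h4.1 _ he] at h6
  have h7 := Fintype.linearIndependent_iff.1 (h4.2 _ he) (fun b => μ b.succ)
    (h6.trans (by simp [dd]))
  have h8 := h5.self_of_nhds
  simp only [h7, zero_mul, Finset.sum_const_zero, zero_eq_neg] at h8
  exact funext (Fin.cases h8 h7)

omit [IsManifold 𝓘(ℂ, Cm p) ω Y] in
theorem loc_const {a : X → ℂ} {x : X} (ha : Hol n a x)
    (h : ∀ᶠ y in 𝓝 x, ¬ Ind n (fun _ : Fin 1 => a) y) : ∀ᶠ y in 𝓝 x, a y = a x := by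
  have he := at_chart (n := n) x
  set e := chartAt (Cm n) x
  have h1 : ∀ᶠ z in 𝓝 (e x), DifferentiableAt ℂ (fun z => a (e.symm z)) z ∧
      fderiv ℂ (fun z => a (e.symm z)) z = 0 := by
    filter_upwards [at_ev he (h.and (ha.near.and (at_near he))), P277Z.At.right he] with z k1 k2
    have k3 := (k1.2.1 e k1.2.2).differentiableAt
    have k4 : dd a e (e.symm z) = 0 := by
      by_contra k
      exact k1.1 (.of_chart (fun _ => k1.2.1) k1.2.2 (linearIndependent_unique_iff.2 k))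
    rw [dd, k2] at k4
    exact ⟨k2 ▸ k3, k4⟩
  obtain ⟨ε, hε, h2⟩ := Metric.eventually_nhds_iff_ball.1 h1
  filter_upwards [(e.continuousAt he.2).eventually (Metric.ball_mem_nhds _ hε),
    P277Z.At.left he] with y k1 k2
  have k3 := Metric.isOpen_ball.is_const_of_fderiv_eq_zero (convex_ball _ _).isPreconnected
    (fun z hz => (h2 z hz).1.differentiableWithinAt) (fun z hz => (h2 z hz).2) k1
    (Metric.mem_ball_self hε)
  rwa [k2, e.left_inv he.2] at k3

theorem rk_of_li [PreconnectedSpace X] (hG : Hyp p G) (hi : HolM n p i) (hL : IsLB n L)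
    (ht : ∀ a, SecP n p i univ L G c (t a)) (h : LI i G L t) (hr : r ≤ 1) :
    Rk n (i ⁻¹' off G) L t := by
  obtain ⟨x, a, h1, h2, h3⟩ : ∃ x a, i x ∈ off G ∧ x ∈ L.U a ∧ t 0 a x ≠ 0 := by
    by_contra! k
    have k1 := h (Pi.single 0 1) fun x b k2 k3 => by simp [Fin.sum_univ_succ, k x b k2 k3]
    simpa using congrFun k1 0
  obtain rfl | rfl := Nat.le_one_iff_eq_zero_or_eq_one.1 hr
  · exact ⟨x, h1, a, h2, h3, fun b => b.elim0, fun _ _ => linearIndependent_empty_type⟩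
  by_contra k
  have h4 : ∀ᶠ y in 𝓝 x, i y ∈ off G ∧ y ∈ L.U a ∧ t 0 a y ≠ 0 := by
    filter_upwards [(hG.isOpen.preimage hi.cont).mem_nhds h1, lb_near hL h2,
      ((ht 0).hol a x trivial h2 h1).ne_near h3] with y k1 k2 k3 using ⟨k1, k2, k3⟩
  have h5 := loc_const (((ht 1).hol a x trivial h2 h1).div ((ht 0).hol a x trivial h2 h1) h3)
    (h4.mono fun y k1 k2 => k ⟨y, k1.1, a, k1.2.1, k1.2.2, ind_congr k2 fun b =>
      .of_forall fun z => by rw [Subsingleton.elim b 0]; rfl⟩)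
  generalize t 1 a x / t 0 a x = β at h5
  have h6 := ((ht 0).smul (a := fun _ => -β) fun y _ => hol_const _ y).add (ht 1)
  have h7 := h ![-β, 1] fun y b k1 k2 => by
    by_contra k3
    obtain ⟨z, k4, k5⟩ := mem_closure_iff_nhds.1 (h6.dense_nz hG hi hL ⟨y, k1,
      (h6.nz_iff hL trivial k1 k2).2 (by simpa [Fin.sum_univ_succ] using k3)⟩ x) _ (h4.and h5)
    refine k5.2 a k4.1.2.1 ?_
    show -β * t 0 a z + t 1 a z = 0
    rw [(div_eq_iff k4.1.2.2).1 k4.2]
    ring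
  simpa using congrFun h7 1

end RhoH

open RhoH in
/-- **RHO** -/
theorem rho_of (hGR : GR) : RHO := by
  intro n w V W g L κ _ G c hV hg hL hS
  obtain ⟨S, ρ, h1, h2, h3⟩ := hGR n w V W g L κ G c hg.connY hg.hol hL hS
  refine ⟨S, h1, h2, fun r hr y hy y' hy' e F F' i i' hi hi' ⟨t, ht, hk⟩ => ?_⟩
  have hG := Hyp.of_snc hS
  have k1 : r + 1 ≤ ρ := by
    obtain ⟨U, k, s, -, m1, -, -, m2⟩ := h3 y
    obtain ⟨m3, m4⟩ := m2 y m1 hy
    choose a ha using fun b => m3 e F i hi (t b) (ht b)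
    generalize hT : (LinearMap.pi
      fun q : {q : L.ι × V.X // q.2 ∈ L.U q.1 ∧ q.2 ∈ off G ∧ g q.2 = y} =>
        (∑ j, s j q.1.1 q.1.2 • LinearMap.proj j : (Fin k → ℂ) →ₗ[ℂ] ℂ)) = T at m4
    have m5 : LinearIndependent ℂ fun b => T.rangeRestrict (a b) := by
      refine Fintype.linearIndependent_iff.2 fun μ hμ => congrFun (li_of_rk hG hi.hol.cont
        (hi.hol.lb hL) ht hk μ fun x b p1 p2 => ?_)
      have p3 := congrFun (congrArg Subtype.val hμ) ⟨(b, i x), p2, p1, hi.fib x⟩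
      refine Eq.trans ?_ p3
      subst hT
      simp only [ha _ x p1 b p2]
      simp [mul_comm]
    have m6 := m5.fintype_card_le_finrank
    have m7 := T.finrank_range_add_finrank_ker
    simp only [Fintype.card_fin, Module.finrank_fin_fun] at m6 m7
    omega
  obtain ⟨U, k, s, -, m1, m0, -, m2⟩ := h3 y'
  obtain ⟨-, m4⟩ := m2 y' m1 hy'
  generalize hT : (LinearMap.pi
    fun q : {q : L.ι × V.X // q.2 ∈ L.U q.1 ∧ q.2 ∈ off G ∧ g q.2 = y'} =>
      (∑ j, s j q.1.1 q.1.2 • LinearMap.proj j : (Fin k → ℂ) →ₗ[ℂ] ℂ)) = T at m4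
  have m7 := T.finrank_range_add_finrank_ker
  rw [Module.finrank_fin_fun] at m7
  obtain ⟨v, hv⟩ := exists_linearIndependent_of_le_finrank (R := ℂ) (M := LinearMap.range T)
    (n := r + 1) (by omega)
  choose a ha using fun b => (v b).2
  have := hi'.conn.2 (hg.conn_all y')
  have m8 : ∀ b, SecP e n i' univ (pull i' L) G c fun l x => ∑ j, a b j * s j l (i' x) := fun b =>
    secP_sum _ fun j _ => (((m0 j).comp hi'.hol).res fun x _ =>
      show g (i' x) ∈ U from (hi'.fib x).symm ▸ m1).smul fun x _ => hol_const _ x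
  refine ⟨_, m8, rk_of_li hG hi'.hol (hi'.hol.lb hL) m8 (fun μ hμ => funext
    (Fintype.linearIndependent_iff.1 hv μ (Subtype.ext (funext fun q => ?_)))) hr⟩
  obtain ⟨⟨b, z⟩, p1, p2, p3⟩ := q
  obtain ⟨x, rfl⟩ := hi'.ex (y := z) p3
  refine Eq.trans ?_ (hμ x b p2 p1)
  simp [← ha, ← hT, mul_comm]

end Vale.Agent.P281Z.Ri
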