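import Vale.Agent.P281Z.Ri.Defs

/-!
# P281, block R1: the Stein factorisation, on a smooth model
-/

open scoped Manifold ContDiff Topology
open Set Filter Function
open Vale.Agent.P272.K (Cm Chart At)
open Vale.Agent.P285.H281.FD (Bd IsLB)
open Vale.Agent.P277.HD (pull)
open Vale.Agent.P277Z (Hol)
open Vale.Agent.P277Z.Slc (Ind Snc triv isLB_triv at_chartAt dd dd_congr)

noncomputable section

namespace Vale.Agent.P281Z.Ri

namespace St

variable {n p : ℕ} {X Y : Type} [TopologicalSpace X] [ChartedSpace (Cm n) X]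
  [TopologicalSpace Y] [ChartedSpace (Cm p) Y]

theorem secP_of {i : X → Y} {O : Set X} {L : Bd X} (hL : ∀ a b x, L.g a b x = 1) {a : X → ℂ}
    (h : ∀ x ∈ O, Hol n a x) (G : Empty → Set Y) (c : Empty → ℝ) :
    SecP n p i O L G c fun _ => a :=
  ⟨fun _ x hx _ _ => h x hx, fun _ _ _ _ _ _ _ => by rw [hL, one_mul], fun _ x hx _ _ _ =>
    let ⟨C, _, k⟩ := bdd_near (h x hx).continuousAt.norm
    ⟨C, k.mono fun y hy _ => by simpa using hy⟩⟩

theorem hol_of_lc {a : X → ℂ} (h : IsLocallyConstant a) (x : X) : Hol n a x :=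
  P277Z.Hol.congr (a := fun _ => a x) (fun _ _ => analyticAt_const)
    ((h.eventually_eq x).mono fun _ k => k.symm)

theorem ind_sum {α β : Type} [IsEmpty α] (a : α → X → ℂ) {h : β → X → ℂ} {x : X}
    (hi : Ind n h x) : Ind n (Sum.elim a h) x := by
  have e : Sum.elim a h = fun b => h (Equiv.emptySum α β b) := funext fun
    | .inl a => isEmptyElim a
    | .inr _ => rfl
  rw [e]
  exact hi.comp _ (Equiv.injective _)

theorem not_ind {α : Type} {h : α → X → ℂ} {x : X} (l : α) {c : ℂ} (k : ∀ᶠ y in 𝓝 x, h l y = c) :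
    ¬ Ind n h x := fun hi => (hi.2 _ (at_chartAt x)).ne_zero l
  ((dd_congr k (at_chartAt x)).trans (fderiv_const_apply c))

end St

open St in
theorem stein_of (gr : GR) (quo : QUO) (diml : DIML) (dimu : DIMU) (lcst : LCST) : STEIN := by
  intro n p V Y f hV hf hs
  have : ConnectedSpace Y.X := hs.connectedSpace hf.cont
  have hG : Snc n (Empty.elim : Empty → Set V.X) := fun x => ⟨Empty.elim, fun l => l.elim,
    fun l => l.1.elim, fun _ _ => linearIndependent_empty_type⟩
  have ho : ∀ x, x ∈ off (Empty.elim : Empty → Set V.X) := fun _ l => l.elim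
  obtain ⟨S, ρ, hS, hr, H⟩ := gr n p V Y f (triv V.X) Empty Empty.elim Empty.elim ‹_› hf
    isLB_triv hG
  choose U k s hU hy sec gen fib using H
  let C : Cvr Y := ⟨Y.X, U, k, hU, fun y => ⟨y, hy y⟩⟩
  let L : LS f C :=
    { H := triv V.X
      φ := s
      lb := isLB_triv
      hol := fun α j b x hx hb => (sec α j).hol b x hx hb (ho x)
      chg := fun α j b b' x hx hb hb' => (sec α j).chg b b' x hx hb hb' (ho x)
      nz := fun α b x hx hb => by
        obtain ⟨a, -, h⟩ := gen α univ isOpen_univ _ (secP_of (a := fun _ => 1) (fun _ _ _ => rfl)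
          (fun _ _ _ _ => analyticAt_const) _ _) (f x) ⟨hx, trivial⟩
        by_contra! k
        simpa [k] using h.self_of_nhds x (ho x) rfl b hb
      cmp := fun α β y h h' => by
        choose A hA hA' using fun j => gen α (U β) (hU β) _ (sec β j) y ⟨h, h'⟩
        exact ⟨A, hA, (eventually_all.2 hA').mono fun y' k x _ hx b hb j =>
          k j x (ho x) hx b hb⟩ }
  obtain ⟨w, ⟨Q⟩⟩ := quo n p V Y f C L hf hV
  have sb : ∀ y ∉ S, ∀ x, f x = y → Sbm n p f x := fun y h x hx => (hr y h).sbm hf hG hx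
  have fb : ∀ x, f x ∉ S → ∃ (d : ℕ) (F : Mf d) (i : F.X → V.X), Emb d n i (f ⁻¹' {f x}) ∧
      ∀ α j b, f x ∈ U α → IsLocallyConstant fun z => s α j b (i z) := fun x hx => by
    obtain ⟨d, hd⟩ := Nat.exists_eq_add_of_le (sb _ hx x rfl).le
    obtain ⟨F, i, hi⟩ := fib_emb hd hf (sb _ hx)
    exact ⟨d, F, i, hi, fun α j b h => lcst d F _ fun z => hi.hol.hol
      (L.hol α j b _ ((hi.fib z).symm ▸ h) trivial)⟩
  have hS' := hS.pre_surj hf hs
  obtain rfl : w = p := by
    refine le_antisymm (not_lt.1 fun h => ?_) ?_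
    · obtain ⟨x, α, b, j, e, σ, ad, hI⟩ := dimu n p V Y f C L hf w Q 1 hV hs h
      obtain ⟨x', a₁, a₂, a₃, a₄⟩ := ((hS'.freq x).and_eventually (hI.near.and
        ((hf.cont.continuousAt.eventually (at_near ad.ch)).and
          (hf.cont.continuousAt.eventually ((hU α).mem_nhds ad.mem))))).exists
      obtain ⟨d, F, i, hi, lc⟩ := fb x' a₁
      obtain ⟨z, rfl⟩ := hi.ex (y := x') rfl
      refine not_ind 0 (c := s α (σ 0) b (i z) / s α j b (i z)) ?_ (hi.fib_ind hf a₃ a₂)
      filter_upwards [(lc α (σ 0) b a₄).eventually_eq z, (lc α j b a₄).eventually_eq z] with y b₁ b₂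
      exact congrArg₂ _ b₁ b₂
    · obtain ⟨x, hx⟩ := hS'.dense.nonempty
      exact diml n p V Y f C L hf w Q 0 Fin.elim0 x _ (fun c => c.elim0) (at_chartAt _)
        (ind_sum _ ((sbm_iff_ind (hf.at x) (at_chartAt _)).1 (sb _ hx x rfl)))
  have := Q.md.conn
  have : ConnectedSpace Q.W.X := Q.sg.connectedSpace Q.hg.cont
  refine ⟨Q.W, Q.V', Q.u, Q.B, Q.g, Q.h, Q.md, ⟨Q.hg, Q.sg, Q.T ∪ Q.h ⁻¹' S, Q.thin.union
    (hS.pre_surj Q.hh fun y => ?_), fun z hz => ?_⟩, Q.hh, Q.comm, Q.kah⟩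
  · obtain ⟨x, rfl⟩ := (hs.comp Q.md.surj) y
    exact ⟨_, Q.comm x⟩
  obtain ⟨x₀, rfl⟩ := Q.sg z
  have h0 : f (Q.u x₀) ∉ S := fun h => hz (.inr (show Q.h _ ∈ S from Q.comm x₀ ▸ h))
  obtain ⟨d, F, i, hi, lc⟩ := fb _ h0
  obtain ⟨a₀, ha₀⟩ := hi.ex (y := Q.u x₀) rfl
  have e : Q.g ⁻¹' {Q.g x₀} = Q.u ⁻¹' (i '' connectedComponent a₀) := by
    refine Set.ext fun x => ⟨fun h => ?_, fun ⟨a, ha, h⟩ => Q.sep x₀ x (fun k => hz (.inl k)) ?_⟩
    · obtain ⟨r₁, r₂⟩ := Q.rel x₀ x (Eq.symm h)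
      obtain ⟨a, ha⟩ := hi.ex (y := Q.u x) r₁.symm
      have t := fun (t : F.X → ℂ) (ht : IsLocallyConstant t) => (fib _ _ (hy _) h0).1 d F i hi _
        (secP_of (fun _ _ _ => rfl) (fun z _ => hol_of_lc ht z) _ _)
      have cl : IsClopen (connectedComponent a₀) := isClopen_connectedComponent
      obtain ⟨c, hc⟩ := t _ (LocallyConstant.charFn ℂ cl).isLocallyConstant
      obtain ⟨c', hc'⟩ := t _ (IsLocallyConstant.const 1)
      refine ⟨a, by_contra fun k => ?_, ha⟩
      have b₁ := ((LocallyConstant.charFn_eq_one ℂ a₀ cl).2 mem_connectedComponent).symm.trans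
        (hc a₀ (ho _) () trivial)
      have b₂ := ((LocallyConstant.charFn_eq_zero ℂ a cl).2 k).symm.trans (hc a (ho _) () trivial)
      have b₃ := congrArg₂ (· * ·) b₁ (hc' a (ho _) () trivial)
      have b₄ := congrArg₂ (· * ·) b₂ (hc' a₀ (ho _) () trivial)
      rw [Finset.sum_mul_sum] at b₃ b₄
      refine one_ne_zero ((one_mul _).symm.trans (b₃.trans (Eq.trans ?_
        (b₄.symm.trans (zero_mul _)))))
      refine Finset.sum_congr rfl fun j _ => Finset.sum_congr rfl fun j' _ => ?_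
      have := r₂ _ () () j j' (hy _) trivial trivial
      rw [ha, ha₀]
      linear_combination c j * c' j' * this
    · refine ⟨((hi.fib a).symm.trans (congrArg f h)), fun α b b' j j' k _ _ => ?_⟩
      have t : ∀ j, s α j () (Q.u x) = s α j () (Q.u x₀) := fun j => by
        rw [← h, ← ha₀]
        exact (lc α j () k).apply_eq_of_isPreconnected isPreconnected_connectedComponent ha
          mem_connectedComponent
      exact show s α j () _ * s α j' () _ = s α j' () _ * s α j () _ by rw [t, t, mul_comm]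
  rw [e]
  exact conn_pre Q.md.hol.cont Q.md.conn_all (hi.cemb.isClosedMap _ isClosed_connectedComponent)
    (isConnected_connectedComponent.image _ hi.hol.cont.continuousOn)

end Vale.Agent.P281Z.Ri
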