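import Vale.Agent.P281Z.Ri.Defs
import Mathlib.Geometry.Manifold.Complex

/-!
# P281, block R1: exchange, change of coordinates, locally constant functions, extension by zero
-/

open scoped Manifold ContDiff Topology
open Set Filter Function
open Vale.Agent.P272.K
open Vale.Agent.P285.H281.FD (Bd IsLB IsSec NZ)
open Vale.Agent.P277.HD (pull)
open Vale.Agent.P277Z (Hol at_chart hol_const)
open Vale.Agent.P277Z.Slc (Ind LEq Snc dd dd_congr)

set_option linter.all false

noncomputable section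

namespace Vale.Agent.P281Z.Ri

namespace Tl

theorem li_congr {M ι : Type} [AddCommGroup M] [Module ℂ M] {u v : ι → M}
    (h : LinearIndependent ℂ u) (k : ∀ i, u i = v i) : LinearIndependent ℂ v := funext k ▸ h

theorem lin_exch {M : Type} [AddCommGroup M] [Module ℂ M] {α β γ : Type} [Fintype α] [Fintype β]
    [Fintype γ] {v : α ⊕ β → M} {w : γ → M} {r : ℕ} (hb : LinearIndependent ℂ fun b => v (.inr b))
    (hw : LinearIndependent ℂ w) (hs : ∀ c, w c ∈ Submodule.span ℂ (range v))
    (hr : Fintype.card β + r ≤ Fintype.card γ) : ∃ σ : Fin r → α,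
      LinearIndependent ℂ (Sum.elim (fun c => v (.inl (σ c))) fun b => v (.inr b)) := by
  classical
  obtain ⟨b, -, b1, b2, b3⟩ := exists_linearIndepOn_extension (K := ℂ) (v := v)
    (s := range Sum.inr) (t := univ) ((linearIndepOn_range_iff Sum.inr_injective v).2 hb)
    (subset_univ _)
  have h1 := (linearIndependent_le_span_aux' w hw
    (range fun i : {i // Sum.inl i ∈ b} ⊕ β => v (i.map (↑) id)) (by
      rintro _ ⟨c, rfl⟩
      refine (Submodule.span_le.2 ((image_univ ▸ b2).trans (Submodule.span_mono ?_))) (hs c)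
      rintro _ ⟨i | i, hi, rfl⟩
      exacts [⟨.inl ⟨i, hi⟩, rfl⟩, ⟨.inr i, rfl⟩])).trans (Fintype.card_range_le _)
  rw [Fintype.card_sum] at h1
  obtain ⟨σ⟩ := Function.Embedding.nonempty_of_card_le (α := Fin r) (β := {i // Sum.inl i ∈ b})
    (by rw [Fintype.card_fin]; omega)
  refine ⟨fun c => σ c, ?_⟩
  have h2 := b3.linearIndependent.comp (Sum.elim (fun c => (⟨.inl (σ c), (σ c).2⟩ : b))
    fun j => ⟨.inr j, b1 ⟨j, rfl⟩⟩) (by
      rintro (c | c) (c' | c') k
      · exact congrArg _ (σ.injective (Subtype.ext (Sum.inl.inj (congrArg Subtype.val k))))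
      · exact absurd (congrArg Subtype.val k) Sum.inl_ne_inr
      · exact absurd (congrArg Subtype.val k) Sum.inr_ne_inl
      · exact congrArg _ (Sum.inr.inj (congrArg Subtype.val k)))
  exact li_congr h2 fun i => by cases i <;> rfl

theorem span_comp {E ι : Type} [NormedAddCommGroup E] [NormedSpace ℂ E] [Fintype ι]
    (φ : (ι → ℂ) →L[ℂ] ℂ) (f : ι → E →L[ℂ] ℂ) :
    φ.comp (ContinuousLinearMap.pi f) ∈ Submodule.span ℂ (range f) := by
  classical
  refine (Submodule.mem_span_range_iff_exists_fun ℂ).2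
    ⟨fun i => φ fun j => if i = j then 1 else 0, ContinuousLinearMap.ext fun v => ?_⟩
  have h := (φ : (ι → ℂ) →ₗ[ℂ] ℂ).pi_apply_eq_sum_univ fun i => f i v
  rw [ContinuousLinearMap.sum_apply]
  exact (Finset.sum_congr rfl fun i _ => mul_comm _ _).trans h.symm

end Tl

open Tl

theorem exch : EXCH := by
  intro n V α β γ _ _ _ h a x r h1 h2 h3 h4 h5
  have he := at_chart (n := n) x
  set e := chartAt (Cm n) x
  obtain ⟨σ, hσ⟩ := lin_exch (v := fun i => dd (h i) e x) (h2.2 e he) (h3.2 e he) (fun c => by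
    obtain ⟨A, a1, a2⟩ := h4 c
    have k := (show DifferentiableAt ℂ A fun i => h i (e.symm (e x)) by
      rw [he.left_inv]; exact a1.differentiableAt).hasFDerivAt.comp (e x)
      (hasFDerivAt_pi.2 fun i => (h1 i e he).differentiableAt.hasFDerivAt)
    rw [dd_congr a2 he]
    exact (show dd (fun z => A fun i => h i z) e x = _ from k.fderiv) ▸ span_comp _ _) h5
  refine ⟨σ, Ind.of_chart (Sum.rec (fun _ => h1 _) fun _ => h1 _) he ?_⟩
  exact li_congr hσ fun i => by cases i <;> rfl

theorem indc : INDC := by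
  intro n p V Y f α ζ x e a hf he ha h
  have h1 := ((sbm_iff_ind (hf.at x) he).2 (h.comp Sum.inr Sum.inr_injective)).ind (hf.at x) ha
  refine ⟨Sum.rec (fun i => h.1 (.inl i)) h1.1, fun c hc => ?_⟩
  obtain ⟨k1, -, k3⟩ := linearIndependent_sum.1 (h.2 c hc)
  refine linearIndependent_sum.2 ⟨k1, h1.2 c hc, k3.mono_right (Submodule.span_le.2 ?_)⟩
  rintro _ ⟨i, rfl⟩
  have k := span_comp (dd (a i) e (f x)) fun b => dd (fun y => e (f y) b) c x
  rwa [← df_eq_pi (hf.at x) hc he, ← dd_comp (ha.1 i) (hf.at x) hc he] at k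

theorem lcst : LCST := fun n V a h => by
  refine MDifferentiable.isLocallyConstant (I := 𝓘(ℂ, Cm n)) fun x => ?_
  have he := at_chart (n := n) x
  have h1 := ContMDiffAt.comp x (g := fun z => a ((chartAt (Cm n) x).symm z))
    (contMDiffAt_iff_contDiffAt.2 (h x _ he).contDiffAt) (chart_contMDiffAt he)
  exact (h1.congr_of_eventuallyEq ((at_near he).mono fun y hy =>
    (congrArg a hy.left_inv).symm)).mdifferentiableAt (by simp)

theorem ext0 : EXT0 := by
  intro e n r F F' V J j T L κ _ G c hj ⟨s, h1, x₀, h2, h3⟩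
  have : Nonempty F.X := ⟨x₀⟩
  have g1 : ∀ x, invFun j (j x) = x := leftInverse_invFun hj.inj
  generalize invFun j = g at g1
  have g2 : ∀ x, HolA e e g (j x) ∧ ∀ᶠ z in 𝓝 (j x), z ∈ T ∧ j (g z) = z := fun x => by
    obtain ⟨g', -, a2, -, -, a3⟩ := (hj.imm x).inv (hj.hol.at x)
    have k : ∀ᶠ z in 𝓝 (j x), g' z = g z := a3.mono fun z hz => by rw [← g1 (g' z), hz]
    refine ⟨a2.cng k, ?_⟩
    filter_upwards [a3, k] with z z1 z2 using ⟨z1 ▸ hj.mem _, z2 ▸ z1⟩
  have g3 : ∀ y ∉ T, ∀ u : F'.X → ℂ, ∀ᶠ z in 𝓝 y, T.indicator u z = 0 := fun y hy u =>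
    (hj.closed.isOpen_compl.eventually_mem hy).mono fun z hz => indicator_of_notMem hz _
  have g4 : ∀ b a x, T.indicator (fun z => s b a (g z)) (j x) = s b a x := fun b a x => by
    rw [indicator_of_mem (hj.mem x), g1]
  have h4 : ∀ b, SecP e n J univ L G c fun a => T.indicator fun z => s b a (g z) := fun b => by
    refine ⟨fun a y _ ha hG => ?_, fun a a' y _ ha ha' hG => ?_, fun a y _ ha => ?_⟩ <;>
      by_cases hy : y ∈ T
    · obtain ⟨x, rfl⟩ := hj.ex hy
      exact ((g2 x).1.hol ((g1 x).symm ▸ (h1 b).hol a x trivial ha hG)).congr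
        ((g2 x).2.mono fun z hz => (indicator_of_mem hz.1 fun z => s b a (g z)).symm)
    · exact (hol_const 0 y).congr ((g3 y hy _).mono fun _ => Eq.symm)
    · obtain ⟨x, rfl⟩ := hj.ex hy
      exact (g4 b a x).trans (((h1 b).chg a a' x trivial ha ha' hG).trans
        (congrArg _ (g4 b a' x).symm))
    · rw [indicator_of_notMem hy, indicator_of_notMem hy, mul_zero]
    · obtain ⟨x, rfl⟩ := hj.ex hy
      intro ζ hζ
      obtain ⟨C, hC⟩ := (h1 b).bd a x trivial ha ζ hζ
      have k : Tendsto g (𝓝 (j x)) (𝓝 x) := by simpa only [ContinuousAt, g1] using (g2 x).1.cont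
      refine ⟨C, ?_⟩
      filter_upwards [k.eventually hC, (g2 x).2] with z z1 z2
      rwa [indicator_of_mem z2.1, ← z2.2, g1]
    · exact (bdP_zero (p := n) (i := J) (G := G) (c := c)).congr
        ((g3 y hy _).mono fun _ k _ => k)
  refine sy_of _ h4 h2 (RkAt.of_comp ?_ (hj.hol.at x₀) fun b a ha => (h4 b).hol a _ trivial ha h2)
  simp only [g4]
  exact h3

end Vale.Agent.P281Z.Ri
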