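import Vale.Agent.P281Z.Ri.Main
import Vale.Agent.P281Z.Ri.Qsp
import Vale.Agent.P281Z.Ri.Qreg
import Vale.Agent.P281Z.Ri.Resc
import Vale.Agent.P281Z.Ri.Grf
import Vale.Agent.P281Z.Ri.Base
import Vale.Agent.P281Z.Ri.Stein
import Vale.Agent.P281Z.Ri.Tools
import Vale.Agent.P281Z.Ri.Proj
import Vale.Agent.P281Z.Ri.Onef
import Vale.Agent.P281Z.Ri.Rho
import Vale.Agent.P281Z.Ri.Pull

/-!
# P281, block R1: the theorems, from the resolution theorems
-/

namespace Vale.Agent.P281Z.Ri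

theorem quo_res (hH : P277Z.Hir.StMain) (hR : Rs.RES) : QUO :=
  quo_of qsp qreg (resc_of hH) (grf_of hR)

theorem stein_res (hH : P277Z.Hir.StMain) (hR : Rs.RES) (hG : GEN) (hGR : GR) : STEIN :=
  stein_of hGR (quo_res hH hR) diml (dimu_of hG exch) lcst

theorem r1_res (hH : P277Z.Hir.StMain) (hR : Rs.RES) (hG : GEN) (hREM : REM) (hL : LOGM)
    (hM : MODEL) (hGR : GR) (hS : START) : R1 :=
  r1_of hGR hREM hL hM (base_of hR) (quo_res hH hR) (dimu_of hG exch) (stein_res hH hR hG hGR)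
    pull_of (one_of hG (fub_of hR hG) (rho_of hGR) (proj_of hG lcst)
      (onef_of hS hG (fub_of hR hG) indc) ext0)

end Vale.Agent.P281Z.Ri
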