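import Vale.Agent.P281Z.Ri.Defs
import Vale.Agent.P281Z.Mf.Adj
import Vale.Agent.P281Z.Pb.Api
import Vale.Agent.P281Z.Pb.Ps

/-!
# P281, block R1: the fibres of the relative Iitaka fibration
-/

open scoped Manifold ContDiff Topology
open Set Filter Function
open Vale.Agent.P272.K (Cm Chart At)
open Vale.Agent.P285.H281.FD (Bd IsLB IsSec NZ)
open Vale.Agent.P277.HD (pull)
open Vale.Agent.P277Z (Hol hol_const)
open Vale.Agent.P277Z.Slc (Ind LEq Snc isLB_can)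

noncomputable section

namespace Vale.Agent.P281Z.Ri

namespace On

variable {n p d e : ℕ} {V : Mf n} {Y : Mf p} {F : Mf d} {Γ : Mf e} {f : V.X → Y.X}
  {i : F.X → V.X} {y : Y.X} {κ : Type} [Fintype κ] {G : κ → Set V.X} {c : κ → ℝ}

omit [Fintype κ] in
theorem cls_can (hR : RegAt n p f G y) (hf : HolM n p f) (hS : Snc n G)
    (hi : Emb d n i (f ⁻¹' {y})) :
    cls d (Bd.can d F.X) = hi.hol.pic (cls n (Bd.can n V.X)) := by
  rw [← cls_pull hi.hol isLB_can]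
  exact (cls_eq isLB_can (hi.hol.lb isLB_can)).2 (adj_iso hi hf fun x hx => hR.sbm hf hS hx)

theorem kap_iff (hR : RegAt n p f G y) (hf : HolM n p f) (hS : Snc n G)
    (hi : Emb d n i (f ⁻¹' {y})) (M j : ℕ) : KapM d n i (Bd.can d F.X) G c M j ↔
      Sy d n i (pull i ((Bd.can n V.X).pow M)) G (fun l => M * c l) j := by
  have k : cls d ((Bd.can d F.X).pow M) = cls d (pull i ((Bd.can n V.X).pow M)) := by
    rw [cls_pow isLB_can, cls_pull hi.hol (lb_pow isLB_can M), cls_pow isLB_can, map_nsmul,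
      cls_can hR hf hS hi]
  have h1 := hi.hol.lb (lb_pow (isLB_can (n := n) (W := V.X)) M)
  exact ⟨fun h => Sy.of_cls (.of_snc hS) hi.hol.cont h1 (lb_pow isLB_can M) h k.symm
    fun _ => le_rfl, fun h => Sy.of_cls (.of_snc hS) hi.hol.cont (lb_pow isLB_can M) h1 h k
    fun _ => le_rfl⟩

/-- the poles can be measured on an intermediate regular fibre -/
theorem sy_mid (hR : RegAt n p f G y) (hf : HolM n p f) (hS : Snc n G)
    (hi : Emb d n i (f ⁻¹' {y})) {j : Γ.X → F.X} (hj : Continuous j) {L : Bd Γ.X} {r : ℕ}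
    (h : Sy e n (fun x => i (j x)) L G c r) : Sy e d j L (fun l => i ⁻¹' G l) c r := by
  obtain ⟨s, h1, h2⟩ := h
  refine ⟨s, fun b => ⟨(h1 b).hol, (h1 b).chg, fun a x _ ha => ?_⟩, h2⟩
  obtain ⟨ζ, hζ⟩ := Hyp.of_snc hS (i (j x))
  obtain ⟨C, hC⟩ := (h1 b).bd a x trivial ha ζ hζ
  exact bdP_of_one (G := fun l => i ⁻¹' G l) (ζ := fun l z => ζ l (i z)) hj.continuousAt
    (hR.leq hf hi hζ) hC

variable {C : Cvr Y} (S : LS f C)

theorem rk_near (hf : Continuous f) {r : ℕ} {x : V.X} (h : S.Rk r x) :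
    ∀ᶠ z in 𝓝 x, S.Rk r z := by
  obtain ⟨α, b, j, e, σ, h1, h2⟩ := h
  filter_upwards [hf.continuousAt.eventually ((C.opn α).mem_nhds h1.mem), lb_near S.lb h1.fr,
    (S.hol α j b x h1.mem h1.fr).ne_near h1.ne, hf.continuousAt.eventually (at_near h1.ch),
    h2.near] with z k1 k2 k3 k4 k5 using ⟨α, b, j, e, σ, ⟨k1, k2, k3, k4⟩, k5⟩

theorem sec_fib (hi : HolM d n i) {α : C.ι} (h : ∀ z, f (i z) ∈ C.U α) (j : Fin (C.k α)) :
    IsSec d (pull i S.H) fun b z => S.φ α j b (i z) :=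
  isSec_of (fun b z hb => hi.hol (S.hol α j b (i z) (h z) hb))
    fun b b' z hb hb' => S.chg α j b b' (i z) (h z) hb hb'

theorem sec_cmb {H : Bd F.X} {r j : ℕ} {φ : Fin r → H.ι → F.X → ℂ} (h : ∀ a, IsSec d H (φ a))
    (A : Fin j → Fin r → ℂ) (a : Fin j) : IsSec d H (cmb φ A a) :=
  isSec_of (fun _ x hb => Hol.sum _ fun b _ => (hol_const _ x).mul (sec_hol (h b) hb))
    fun b b' x hb hb' => by
      simp only [cmb, Finset.mul_sum]
      exact Finset.sum_congr rfl fun l _ => by rw [(h l).change b b' x hb hb']; ring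

theorem cmb_single {X ι : Type} {r j : ℕ} (φ : Fin r → ι → X → ℂ) (τ : Fin j → Fin r) :
    cmb φ (fun a => Pi.single (τ a) 1) = fun a => φ (τ a) := by
  funext a b x
  simp [cmb, Pi.single_apply]

theorem cmb_rel {X ι : Type} {r j : ℕ} {φ : Fin r → ι → X → ℂ} (A : Fin j → Fin r → ℂ) {b b' : ι}
    {x x' : X} (h : ∀ k l, φ k b x * φ l b' x' = φ l b x * φ k b' x') (a a' : Fin j) :
    cmb φ A a b x * cmb φ A a' b' x' = cmb φ A a' b x * cmb φ A a b' x' := by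
  simp only [cmb, Finset.sum_mul_sum]
  rw [Finset.sum_comm]
  refine Finset.sum_congr rfl fun k _ => Finset.sum_congr rfl fun l _ => ?_
  linear_combination A a l * A a' k * h l k

theorem cls_mid {m : ℕ} (hi : HolM d n i) {K H : Bd V.X} (hK : IsLB n K) (hH : IsLB n H) :
    cls d ((pull i H).mul (pull i ((K.pow m).mul (zp H (-1))))) = m • hi.pic (cls n K) := by
  have h1 := lb_mul (lb_pow hK m) (lb_zp hH (-1))
  rw [cls_mul (hi.lb hH) (hi.lb h1), cls_pull hi hH, cls_pull hi h1, ← map_add,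
    cls_mul (lb_pow hK m) (lb_zp hH _), cls_pow hK, cls_zp hH, ← map_nsmul]
  congr 1
  simp

theorem key (hGEN : GEN) (hFUB : FUB) (hRHO : RHO) (hPROJ : PROJ) (hONEF : ONEF) (hEXT : EXT0)
    {w a m k : ℕ} {W : Mf w} {g : V.X → W.X} {h : W.X → Y.X} (S : LS (fun x => h (g x)) C)
    {δ : κ → ℝ} {ς : Chart n V.X × S.H.ι → V.X → ℂ} {Z : Set V.X} (hV : ConnectedSpace V.X)
    (hg : Fibn n w g) (hS : Snc n G) (hh : Fibn w p h) (hn : n = w + e) (hw : w = p + a)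
    (hm : 0 < m) (hk : 0 < k)
    (hς : SecP n n id univ (((Bd.can n V.X).pow m).mul (zp S.H (-1))) G (fun l => m * δ l) ς)
    (hZ : Thin n Z) (hNZ : ∀ x ∉ Z, NZ (((Bd.can n V.X).pow m).mul (zp S.H (-1))) ς x)
    (hrel : ∀ x x', g x = g x' → S.Rel x x') (hrk : ∃ x, S.Rk a x)
    (hnf : ¬ Oft n p (fun x => h (g x)) (e + a) fun F i =>
      KapL (e + a) n i (Bd.can (e + a) F.X) G δ (a + 1)) :
    ∃ Q, Thin w Q ∧ ∀ y ∉ Q, ∀ (F : Mf e) (i : F.X → V.X), Emb e n i (g ⁻¹' {y}) →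
      KapM e n i (Bd.can e F.X) G δ (m * k) 0 ∧ ¬ KapM e n i (Bd.can e F.X) G δ (m * k) 1 := by
  have hG := Hyp.of_snc hS
  have hf : Fibn n p fun x => h (g x) := hh.comp hg
  have hK : IsLB n (Bd.can n V.X) := isLB_can
  have hM := lb_mul (lb_pow hK m) (lb_zp S.lb (-1))
  obtain ⟨Q, hQ, hQR, hQS⟩ := hRHO n w V W g ((Bd.can n V.X).pow (m * k)) κ G
    (fun l => (m * k : ℕ) * δ l) hV hg (lb_pow hK _) hS
  have hZ' : Thin n (Z ∪ g ⁻¹' Q) := hZ.union (hQ.pre_surj hg.hol hg.surj)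
  refine ⟨Q, hQ, fun y hy F₀ i₀ hi₀ => ⟨?_, fun h1 => ?_⟩⟩
  · obtain ⟨x, hx⟩ := (hZ'.union (snc_thin_off hS)).dense.nonempty
    simp only [mem_compl_iff, mem_union, not_or, not_not, mem_preimage] at hx
    obtain ⟨F, i, hi, -⟩ := (hQR _ hx.1.2).fib hn hg.hol hS
    obtain ⟨x, rfl⟩ := hi.ex (y := x) rfl
    obtain ⟨α, hα⟩ := C.cov (h (g (i x)))
    obtain ⟨b, hb⟩ := S.lb.cover (i x)
    obtain ⟨j, hj⟩ := S.nz α b _ hα hb
    have h1 := sec_fib S hi.hol (α := α) (fun z => by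
      rwa [show h (g (i z)) = h (g (i x)) from congrArg h (hi.fib z)]) j
    have h2 := hi.hol.lb S.lb
    have h3 := hi.hol.lb hM
    have h4 := (sy_zero (lb_mul h2 h3)).2 ⟨_, (secP_of_sec (p := n) (G := G) (c := fun _ => 0)
      hi.hol.cont h1 fun _ => le_rfl).mul hi.hol.cont (hς.comp hi.hol), x, hx.2, fun q hq =>
        mul_ne_zero ((nz_iff h2 (s := fun b z => S.φ α j b (i z)) (fun a b => h1.change a b x)
          hb).2 hj q.1 hq.1) (hNZ _ hx.1.1 q.2 hq.2)⟩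
    refine (kap_iff (hQR y hy) hg.hol hS hi₀ _ _).2 (hQS 0 zero_le_one _ hx.1.2 y hy e F F₀ i i₀ hi
      hi₀ ((h4.pow hi.hol.cont hk).of_cls hG hi.hol.cont (hi.hol.lb (lb_pow hK _))
        (lb_pow (lb_mul h2 h3) _) ?_ fun l => le_of_eq (by push_cast; ring)))
    rw [cls_pow (lb_mul h2 h3), cls_mid hi.hol hK S.lb, cls_pull hi.hol (lb_pow hK _), cls_pow hK,
      map_nsmul, mul_nsmul]
  · have h1 := (kap_iff (hQR y hy) hg.hol hS hi₀ _ _).1 h1
    obtain ⟨Q₁, hQ₁, hR₁⟩ := hGEN n p V Y _ κ G hf.hol hS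
    obtain ⟨Q₂, hQ₂, hF₂⟩ := hFUB n p V Y _ _ hf.hol hZ'
    obtain ⟨x₀, hx₀⟩ := hrk
    obtain ⟨x₀, ⟨α, b₀, j₀, e₀, σ, hA, hI⟩, hx₀⟩ :=
      ((((not_not.1 hnf).union hQ₁.neg).union hQ₂.neg).pre
        fun B hB => hB.pre_surj hf.hol hf.surj).ex (rk_near S hf.hol.cont hx₀)
    simp only [mem_union, not_or, mem_preimage] at hx₀
    have hR := hR₁ _ hx₀.1.2
    obtain ⟨F, i, hi, hS'⟩ := hR.fib (d := e + a) (by omega) hf.hol hS
    obtain ⟨x₀, rfl⟩ := hi.ex (y := x₀) rfl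
    have hc : ConnectedSpace F.X := hi.conn.2 (hf.conn_all _)
    have hnk : ¬ KapL (e + a) n i (Bd.can (e + a) F.X) G δ (a + 1) :=
      fun h => hx₀.1.1 ⟨F, i, hi, h⟩
    have hT : Thin (e + a) (i ⁻¹' (Z ∪ g ⁻¹' Q)) := by
      obtain ⟨z, h2, h3⟩ := (hF₂ _ hx₀.2).exists
      obtain ⟨z, rfl⟩ := hi.ex (y := z) h2
      exact Thin.pre_of_ex hZ'.an hi.hol ⟨z, h3⟩
    have hz' := fun z (hz : z ∉ i ⁻¹' (Z ∪ g ⁻¹' Q)) => hNZ (i z) fun k => hz (Or.inl k)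
    have hα : ∀ z, h (g (i z)) ∈ C.U α := fun z => by rw [hi.fib z]; exact hA.mem
    have h2 := hi.hol.lb S.lb
    have h3 := hi.hol.lb hM
    have hs := sec_fib S hi.hol hα
    have hKF := cls_can hR hf.hol hS hi
    obtain ⟨P⟩ := Pb.psex a
    obtain ⟨A, γ, hγ, hγs, hγp⟩ := hPROJ (e + a) _ a F (pull i S.H) _ P hc h2 hs
      (fun b x hb => S.nz α b _ (hα x) hb)
      ⟨fun c => Pi.single (Fin.cons (α := fun _ => Fin (C.k α)) j₀ σ c) 1, by
        rw [cmb_single]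
        exact ⟨x₀, trivial, b₀, hA.fr, hA.ne, hi.fib_ind hf.hol hA.ch hI⟩⟩
      fun A ⟨x, _, b, k1, k2, k3⟩ => by
        obtain ⟨z, k4, k5, k6, k7⟩ := (mem_closure_iff_frequently.1 (snc_dense_off hS' x)
          |>.and_eventually ((lb_near h2 k1).and
            (((sec_hol (sec_cmb hs A 0) k1).ne_near k2).and k3.near))).exists
        refine hnk (Sy.kapL hG hi.hol.cont isLB_can (lb_mul h2 h3) (Sy.mul_of_dense hG hi.hol.cont
          h2 h3 (sy_of (c := fun _ => 0) _ (fun b => secP_of_sec hi.hol.cont (sec_cmb hs A b)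
            fun _ => le_rfl) k4 ⟨b, k5, k6, k7⟩) (hς.comp hi.hol)
          (Dense.mono (fun z hz _ => hz' z hz) hT.dense)) hm ?_
          fun l => le_of_eq (zero_add _))
        rw [cls_mid hi.hol hK S.lb, hKF]
    obtain ⟨N, hN, hNS⟩ := hONEF (e + a) a m (m * k) F (pull i (Bd.can n V.X)) (pull i S.H) κ
      (fun l => i ⁻¹' G l) δ _ P γ (fun q z => ς q (i z)) _ (hi.hol.lb hK) h2 hS'
      (sec_cmb hs A) hγ hγp hm ((hR.secP hf.hol hS hi).1 (hς.comp hi.hol)) hT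
      hz' fun h => hnk
        (((hR.kapL hf.hol hS hi).2 h).of_cls hG hi.hol.cont isLB_can (hi.hol.lb hK) one_pos one_pos
          (by rw [cls_pull hi.hol hK, hKF]) fun _ => le_rfl)
    obtain ⟨Q₃, hQ₃, hR₃⟩ := hGEN (e + a) a F P.P γ κ _ hγ hS'
    obtain ⟨x₁, -, hx₁⟩ := ((((hN.union hQ₃.neg).pre fun B hB => hB.pre_surj hγ hγs)).union
      hT.neg).ex (x := x₀) univ_mem
    simp only [mem_union, not_or, mem_preimage] at hx₁
    obtain ⟨Γ', j', hj', -⟩ := (hR₃ _ hx₁.1.2).fib (d := e) (by omega) hγ hS'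
    obtain ⟨Γ, j, hj, -⟩ := (hQR _ hx₁.2.2).fib hn hg.hol hS
    obtain ⟨u, hu, hju⟩ := (hi.comp hj').fac hj fun x hx => by
      obtain ⟨x, rfl⟩ := hi.ex (y := x) ((congrArg h hx).trans (hi.fib x₁))
      obtain ⟨b, hb⟩ := h2.cover x
      obtain ⟨b', hb'⟩ := h2.cover x₁
      refine ⟨x, ?_, rfl⟩
      rw [mem_preimage, mem_singleton_iff, (hγp b x hb).2, (hγp b' x₁ hb').2,
        P.pt_eq_iff' (hγp b x hb).1 (hγp b' x₁ hb').1]
      exact cmb_rel A fun k l => (hrel _ _ hx).2 α b b' k l (hα x) hb hb'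
    obtain rfl : (fun z => i (j' (u z))) = j := funext hju
    exact hNS _ hx₁.1.1 e Γ' j' hj' (sy_mid hR hf.hol hS hi hj'.hol.cont
      (hEXT e n 1 Γ Γ' V (fun z => i (j' z)) u _ _ κ G _ hu
        (hQS 1 le_rfl y hy _ hx₁.2.2 e F₀ Γ i₀ _ hi₀ hj h1)))

end On

theorem one_of (hGEN : GEN) (hFUB : FUB) (hRHO : RHO) (hPROJ : PROJ) (hONEF : ONEF)
    (hEXT : EXT0) : ONE := fun _ _ _ _ _ _ _ T _ S _ _ hok hh hn hw hm hk hς hZ hNZ hrel hrk hnf =>
  On.key (g := T.f) (h := T.h) hGEN hFUB hRHO hPROJ hONEF hEXT S hok.conn hok.fibn hok.snc hh hn hw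
    hm hk hς hZ hNZ hrel hrk hnf

end Vale.Agent.P281Z.Ri
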