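import Vale.Agent.P281Z.Ri.Quo
import Vale.Agent.P281Z.Ri.One

/-!
# P281, block R1: the relative Iitaka fibration
-/

open scoped Manifold ContDiff Topology
open Set Filter Function
open Vale.Agent.P272.K (Cm Chart At)
open Vale.Agent.P285.H281.FD (Bd IsLB IsSec NZ)
open Vale.Agent.P277.HD (pull)
open Vale.Agent.P277Z (Hol at_chart hol_const)
open Vale.Agent.P277Z.Slc (Ind LEq Snc isLB_can)

set_option linter.all false

noncomputable section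

namespace Vale.Agent.P281Z.Ri

section dims

variable {n p d : ℕ} {V V₁ : Mf n} {Y : Mf p} {F : Mf d} {f : V.X → Y.X} {C : Cvr Y} {L : Bd V.X}
  {κ : Type} [Fintype κ] {G : κ → Set V.X} {c : κ → ℝ} {s : ∀ α, Fin (C.k α) → L.ι → V.X → ℂ}
  {u : V₁.X → V.X} {B : Set V.X} {S : LS (fun x => f (u x)) C} {ς : L.ι × S.H.ι → V₁.X → ℂ}
  {Z : Set V₁.X} {i : F.X → V.X} {y : Y.X} {r : ℕ}

/-- the output of `BASE` -/
structure Mv (s : ∀ α, Fin (C.k α) → L.ι → V.X → ℂ) (G : κ → Set V.X) (c : κ → ℝ) (B : Set V.X)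
    (S : LS (fun x => f (u x)) C) (ς : L.ι × S.H.ι → V₁.X → ℂ) (Z : Set V₁.X) : Prop where
  hf : HolM n p f
  lb : IsLB n L
  snc : Snc n G
  sec : ∀ α j, SecP n n id (f ⁻¹' C.U α) L G c (s α j)
  md : Modif n u B
  thin : Thin n Z
  nz : ∀ x ∉ Z, u x ∈ off G ∧ NZ ((pull u L).mul (zp S.H (-1))) ς x
  eq : ∀ α j b h x, f (u x) ∈ C.U α → u x ∈ L.U b → x ∈ S.H.U h → u x ∈ off G →
    s α j b (u x) = ς (b, h) x * S.φ α j h x

theorem Mv.near (M : Mv s G c B S ς Z) {x : V₁.X} (hx : x ∉ Z) {α b h} (h1 : f (u x) ∈ C.U α)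
    (h2 : u x ∈ L.U b) (h3 : x ∈ S.H.U h) :
    ∀ᶠ z in 𝓝 x, ς (b, h) z ≠ 0 ∧ ∀ j, s α j b (u z) = ς (b, h) z * S.φ α j h z := by
  filter_upwards [M.thin.closed.isOpen_compl.mem_nhds hx,
    (M.hf.comp M.md.hol).cont.continuousAt.eventually ((C.opn α).mem_nhds h1),
    M.md.hol.cont.continuousAt.eventually (lb_near M.lb h2), lb_near S.lb h3] with z k1 k2 k3 k4
  exact ⟨(M.nz z k1).2 (b, h) ⟨k3, k4⟩, fun j => M.eq α j b h z k2 k3 k4 (M.nz z k1).1⟩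

theorem Mv.low (M : Mv s G c B S ς Z) (hR : RegAt n p f G y) (hi : Emb d n i (f ⁻¹' {y})) {α}
    (hy : y ∈ C.U α) {t : Fin (r + 1) → L.ι → F.X → ℂ} {A : Fin (r + 1) → Fin (C.k α) → ℂ}
    (ht : ∀ q x, i x ∈ off G → ∀ b, i x ∈ L.U b → t q b x = ∑ j, A q j * s α j b (i x))
    (h : P281Z.Rk d (i ⁻¹' off G) (pull i L) t) :
    ∃ (a : Fin r → V₁.X → ℂ) (x : V₁.X) (e : Chart p Y.X), (∀ q, S.Fn (a q) x) ∧ At e (f (u x)) ∧
      Ind n (Sum.elim a fun (q : Fin p) z => e (f (u z)) q) x := by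
  obtain ⟨x₀, h1, b, h2, h3, h4⟩ := h
  have h5 : f (i x₀) ∈ C.U α := (hi.fib x₀).symm ▸ hy
  let T : Fin (r + 1) → V.X → ℂ := fun q z => ∑ j, A q j * s α j b z
  have hT : ∀ q, Hol n (T q) (i x₀) := fun q => P277Z.Hol.sum _ fun j _ =>
    (hol_const _ _).mul ((M.sec α j).hol b _ h5 h2 h1)
  have h0 : T 0 (i x₀) ≠ 0 := fun k => h3 ((ht 0 x₀ h1 b h2).trans k)
  have he := at_chart (n := p) (f (i x₀))
  have h6 := hi.ind_fib M.hf (hR.sbm M.hf M.snc (hi.fib x₀))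
    (ζ := fun (q : Fin r) z => T q.succ z / T 0 z) (fun q => (hT _).mul ((hT 0).inv h0)) he
    (ind_congr h4 fun q => by
      filter_upwards [hi.hol.cont.continuousAt.eventually ((snc_open_off M.snc).mem_nhds h1),
        hi.hol.cont.continuousAt.eventually (lb_near M.lb h2)] with z k1 k2
      rw [ht _ z k1 b k2, ht _ z k1 b k2])
  have h7 := h6.near.and (((hT 0).continuousAt'.eventually_ne h0).and
    ((M.hf.cont.continuousAt.eventually ((at_near he).and ((C.opn α).eventually_mem h5))).and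
      (lb_near M.lb h2)))
  obtain ⟨x₁, hx⟩ := M.md.surj (i x₀)
  rw [← hx] at h7
  obtain ⟨x, ⟨k1, k2, ⟨k3, k4⟩, k5⟩, k6⟩ := ((M.md.hol.cont.continuousAt.eventually
    h7).and_frequently ((M.thin.union M.md.thin_pre).freq x₁)).exists
  rw [mem_union, not_or] at k6
  obtain ⟨h, k7⟩ := S.lb.cover x
  have k8 : ∀ᶠ z in 𝓝 x, ς (b, h) z ≠ 0 ∧ ∀ q, T q (u z) = ς (b, h) z * ∑ j, A q j * S.φ α j h z :=
    (M.near k6.1 k4 k5 k7).mono fun z k => ⟨k.1, fun q => by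
      simp only [T, k.2, Finset.mul_sum, mul_left_comm]⟩
  refine ⟨fun q z => T q.succ (u z) / T 0 (u z), x, _, fun q => (LS.fn_div (M.hf.comp M.md.hol)
    k4 k7 (A q.succ) (A 0) fun k => k2 (by rw [k8.self_of_nhds.2, k, mul_zero])).congr
      (k8.mono fun z k => by
        change _ = T _ _ / T _ _
        rw [k.2, k.2, mul_div_mul_left _ _ k.1]), k3,
    ind_congr ((M.md.sbm k6.2).ind (M.md.hol.at x) k1) ?_⟩
  rintro (q | q) <;> exact .of_forall fun _ => rfl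

theorem Mv.up (M : Mv s G c B S ς Z) {x : V₁.X} (hx : x ∉ Z) (h : S.Rk r x)
    (hi : Emb d n i (f ⁻¹' {f (u x)})) : Sy d n i (pull i L) G c r := by
  obtain ⟨α, h, j, e, σ, k1, k2⟩ := h
  obtain ⟨b, hb⟩ := M.lb.cover (u x)
  have k3 := M.near hx k1.mem hb k1.fr
  have k4 : s α j b (u x) ≠ 0 := by
    rw [k3.self_of_nhds.2]
    exact mul_ne_zero k3.self_of_nhds.1 k1.ne
  have k5 := fun j => (M.sec α j).hol b _ k1.mem hb (M.nz x hx).1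
  have k6 : Ind n (Sum.elim (fun q z => s α (σ q) b z / s α j b z)
      fun (q : Fin p) z => e (f z) q) (u x) := by
    refine ind_of_comp (M.md.hol.at x) ?_ (ind_congr k2 ?_)
    · rintro (q | q)
      · exact (k5 _).mul ((k5 j).inv k4)
      · exact M.hf.hol (hol_chart k1.ch q)
    · rintro (q | q)
      · refine k3.mono fun z k => ?_
        change _ / _ = _ / _
        rw [k.2, k.2, mul_div_mul_left _ _ k.1]
      · exact .of_forall fun _ => rfl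
  obtain ⟨x₂, k7⟩ := hi.ex (y := u x) rfl
  have k8 := k1.ch
  have k9 := (M.nz x hx).1
  have k0 := k1.mem
  rw [← k7] at k4 k6 k8 k9 hb
  exact sy_of (fun q b z => s α ((Fin.cons j σ : Fin (r + 1) → _) q) b (i z))
    (fun q => ((M.sec α _).comp hi.hol).res fun z _ => show f (i z) ∈ _ from hi.fib z ▸ k0) k9
    ⟨b, hb, k4, hi.fib_ind M.hf k8 k6⟩

end dims

theorem int_of {κ κ' : Type} [Fintype κ] {δ : κ → ℚ} {δ' : κ' → ℚ} (h0 : ∀ l, 0 ≤ δ l)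
    (h : ∀ l, δ' l = 1 ∨ δ' l = 0 ∨ ∃ l', δ' l = δ l') :
    ∃ D : ℕ, 0 < D ∧ ∀ (k : ℕ) l, ∃ z : ℕ, ((k * D : ℕ) : ℚ) * δ' l = z := by
  refine ⟨∏ l, (δ l).den, Finset.prod_pos fun l _ => (δ l).den_pos, fun k l => ?_⟩
  rcases h l with e | e | ⟨l', e⟩
  · exact ⟨_, by rw [e, mul_one]⟩
  · exact ⟨0, by rw [e, mul_zero, Nat.cast_zero]⟩
  · obtain ⟨q, hq⟩ := Finset.dvd_prod_of_mem (fun l => (δ l).den) (Finset.mem_univ l')
    obtain ⟨z, hz⟩ := Int.eq_ofNat_of_zero_le (Rat.num_nonneg.2 (h0 l'))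
    refine ⟨k * q * z, ?_⟩
    have k1 : ((δ l').den : ℚ) * δ l' = z := by rw [Rat.den_mul_eq_num, hz, Int.cast_natCast]
    rw [e, hq]
    push_cast
    rw [← k1]
    ring

/-- the linear system along an equal map -/
def LS.cng {n p : ℕ} {V : Mf n} {Y : Mf p} {f f' : V.X → Y.X} {C : Cvr Y} (S : LS f C)
    (h : ∀ x, f' x = f x) : LS f' C where
  H := S.H
  φ := S.φ
  lb := S.lb
  hol α j b x k := S.hol α j b x (h x ▸ k)
  chg α j b b' x k := S.chg α j b b' x (h x ▸ k)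
  nz α b x k := S.nz α b x (h x ▸ k)
  cmp := (funext h : f' = f) ▸ S.cmp

theorem LS.cng_rel {n p : ℕ} {V : Mf n} {Y : Mf p} {f f' : V.X → Y.X} {C : Cvr Y} {S : LS f C}
    (h : ∀ x, f' x = f x) {x x'} (k : S.Rel x x') : (S.cng h).Rel x x' := by
  obtain rfl : f' = f := funext h
  exact k

theorem LS.cng_rk {n p : ℕ} {V : Mf n} {Y : Mf p} {f f' : V.X → Y.X} {C : Cvr Y} {S : LS f C}
    (h : ∀ x, f' x = f x) {x r} (k : S.Rk r x) : (S.cng h).Rk r x := by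
  obtain rfl : f' = f := funext h
  exact k

theorem r1_of (hGR : GR) (hREM : REM) (hLOGM : LOGM) (hMODEL : MODEL) (hB : BASE) (hQ : QUO)
    (hU : DIMU) (hS : STEIN) (hP : PULL) (hO : ONE) : R1 := by
  intro n p d a M hn hM hX hY h1 h2
  have := hM.conn
  have hYc := hM.connY
  have hf := hM.fibn.hol
  obtain ⟨m, h3⟩ := Oft.exists h1
  have hL := lb_pow (isLB_can (n := n) (W := M.X.X)) m
  obtain ⟨S₀, ρ, t₀, reg, loc⟩ := hGR n p M.X M.Y M.f _ M.κ M.G (fun l => m * M.δ l) hYc hf hL hM.snc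
  choose U k s g1 g2 g3 g4 g5 using loc
  let C : Cvr M.Y := ⟨M.Y.X, U, k, g1, fun y => ⟨y, g2 y⟩⟩
  have cmp : Cmp C M.f (off M.G) _ s := fun α β y k1 k2 => by
    choose A k3 k4 using fun j => g4 α _ (g1 β) _ (g3 β j) y ⟨k1, k2⟩
    exact ⟨A, k3, (eventually_all.2 k4).mono fun y' k5 x k6 k7 b k8 j => k5 j x k6 k7 b k8⟩
  obtain ⟨y, y1, F, i, y2, hm, y3⟩ := h3.ex t₀.neg
  obtain ⟨t, y4, y5⟩ := (On.kap_iff (reg y y1) hf hM.snc y2 m a).1 y3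
  choose A hA using fun q => (g5 y y (g2 y) y1).1 d F i y2 _ (y4 q)
  obtain ⟨V₁, u₁, B₁, S, ς, Z, a1, a2, a3, a4, a5, a6⟩ := hB n p M.X M.Y M.f C _ M.κ M.G _ s hM.conn
    hf hL hM.snc g3 cmp (by
      obtain ⟨x, k1, b, k2, k3, -⟩ := y5
      rw [hA 0 x k1 b k2] at k3
      obtain ⟨j, -, k4⟩ := Finset.exists_ne_zero_of_sum_ne_zero k3
      exact ⟨y, j, b, i x, (y2.fib x).symm ▸ g2 y, k2, k1, right_ne_zero_of_mul k4⟩)
  have N : Mv (C := C) s M.G _ B₁ S ς Z := ⟨hf, hL, hM.snc, g3, a1, a4, a5, a6⟩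
  have c1 := a1.conn
  have f1 := hM.fibn.modif a1
  obtain ⟨w, ⟨Q⟩⟩ := hQ n p V₁ M.Y _ C S f1.hol c1
  obtain rfl : w = p + a := by
    obtain ⟨b, x, e, k1, k2, k3⟩ := N.low (reg y y1) y2 (α := y) (g2 y) hA y5
    refine le_antisymm (not_lt.1 fun k => ?_) (diml n p V₁ M.Y _ C S f1.hol w Q a b x e k1 k2 k3)
    obtain ⟨x, k4⟩ := hU n p V₁ M.Y _ C S f1.hol w Q (a + 1) c1 f1.surj k
    obtain ⟨x, k5, k6⟩ := (a4.neg.union (((not_not.1 h2).union t₀.neg).pre fun B hB =>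
      hB.pre_surj f1.hol f1.surj)).ex (k4.near f1.hol)
    simp only [mem_union, not_or, mem_preimage] at k6
    obtain ⟨F', i', k7, -⟩ := (reg _ k6.2.2).fib hn hf hM.snc
    exact k6.2.1 ⟨F', i', k7, m, hm, (On.kap_iff (reg _ k6.2.2) hf hM.snc k7 m _).2
      (N.up k6.1 k5 k7)⟩
  obtain ⟨x₁, r1⟩ := hU n p V₁ M.Y _ C S f1.hol _ Q a c1 f1.surj le_rfl
  have c2 := Q.md.conn
  obtain ⟨W, V₃, u₃, B₃, g, h, b1, b2, b3, b4, b5⟩ := hS n _ Q.V' Q.W Q.g c2 Q.hg Q.sg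
  have m1 := Q.md.comp hREM b1
  obtain ⟨X', u₄, κ', _, G', δ', ⟨B₄, d1⟩, ⟨B', d2⟩, d3, -, d4, d5, d6, -, d7⟩ := hLOGM n M.X V₃ _ _
    M.κ M.G M.δ ∅ (a1.comp hREM m1) hM.snc hM.bdry thin_empty
  have m2 := m1.comp hREM d1
  have c3 := b1.conn
  have c4 := d1.conn
  let T : Tw n (p + a) p := ⟨⟨X', W, fun x => g (u₄ x), κ', G', δ'⟩, M.Y, fun z => Q.h (h z)⟩
  have e1 : ∀ x, T.fb.f x = M.f (u₁ (Q.u (u₃ (u₄ x)))) := fun x =>
    (congrArg Q.h (b4 _)).trans (Q.comm _)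
  have f2 : Fibn n p T.fb.f := (funext e1 : T.fb.f = _) ▸ hM.fibn.modif d2
  have f3 : Fibn n (p + a) T.f := b2.modif d1
  have f4 : Fibn (p + a) p T.h := .of_all (Q.hh.comp b3) fun y => by
    have k : T.h ⁻¹' {y} = T.f '' (T.fb.f ⁻¹' {y}) :=
      (image_preimage_eq (T.h ⁻¹' {y}) f3.surj).symm
    have : ConnectedSpace T.fb.X.X := c4
    exact k ▸ (f2.conn_all y).image _ f3.hol.cont.continuousOn
  have ok : T.toFb.Ok := ⟨c4, f3, d3, d4⟩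
  have le := hMODEL n p T.fb M _ (fun y => y) hM ⟨c4, f2, d3, d4⟩
    ⟨⟨_, d2⟩, ⟨_, modif_id⟩, fun x => (e1 x).symm, d6⟩
  obtain ⟨e, rfl⟩ : ∃ e, d = e + a := ⟨d - a, (Nat.sub_add_cancel (dim n p d a M h1)).symm⟩
  obtain ⟨m', h4⟩ := Oft.exists ((le.fib _ a).1 h1)
  obtain ⟨-, -, -, -, -, hm', -⟩ := h4.ex neg_empty
  obtain ⟨D, D0, D1⟩ := int_of (fun l => (hM.bdry l).1) d5
  obtain ⟨ς', p1, p2⟩ := hP n m M.X X' _ _ M.κ κ' M.G M.δ G' δ' (zp (S.comp m2.hol).H (-1)) _ d2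
    hM.snc d3 hM.bdry d6 (lb_zp (S.comp m2.hol).lb _) (a3.comp m2.hol)
  obtain ⟨x₂, r2, r3⟩ := ((r1.near f1.hol).and_frequently (m2.thin.freq x₁)).exists
  obtain ⟨x₂, rfl⟩ := m2.surj x₂
  have hk := b5 (Q.kah (a2 hX) hY).1 (Q.kah (a2 hX) hY).2
  have hn' : n = p + a + e := by omega
  refine ⟨e, m * (m' * D), T, ⟨ok, f4, d7 hk.1, hk.2, hY, ⟨hn', rfl⟩,
    Nat.mul_pos hm (Nat.mul_pos hm' D0), fun l => mul_assoc m m' D ▸ D1 (m * m') l,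
    hO n _ p e a m _ T C ((S.comp m2.hol).cng e1) ς' _ ok f4 hn' rfl hm (Nat.mul_pos hm' D0) p1
      (((snc_thin_off d3).union d2.thin_pre).union (m2.pre_thin a4)) (fun x hx => ?_)
      (fun x x' k => LS.cng_rel e1 (Q.rel _ _ ((b4 _).symm.trans ((congrArg h k).trans (b4 _)))))
      ⟨x₂, LS.cng_rk e1 (r2.comp m2.hol (m2.sbm r3))⟩ fun k => h2 ((le.fib _ _).2 k),
    h4.mono' neg_empty fun _ _ F i k k' => ?_⟩, le⟩
  · simp only [mem_union, not_or, mem_compl_iff, not_not, mem_preimage] at hx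
    exact p2 x hx.1.1 (d2.imm hx.1.2) (a5 _ hx.2).2
  · rw [mul_left_comm]
    exact k'.2.mul_right (.of_snc d3) k.hol.cont isLB_can (Nat.mul_pos hm D0)

end Vale.Agent.P281Z.Ri
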