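import Vale.Agent.P281Z.Ri.Defs

/-!
# P281, block R1: relative linear systems
-/

open scoped Manifold ContDiff Topology
open Set Filter Function
open Vale.Agent.P272.K (Cm Chart At)
open Vale.Agent.P285.H281.FD (Bd IsLB IsSec NZ)
open Vale.Agent.P277.HD (pull)
open Vale.Agent.P277Z (Hol at_chart trans_an hol_const)
open Vale.Agent.P277Z.Slc (Ind LEq Snc)

set_option linter.all false

noncomputable section

namespace Vale.Agent.P281Z.Ri.LS

variable {n p : ℕ} {V : Mf n} {Y : Mf p} {f : V.X → Y.X} {C : Cvr Y} {S : LS f C} {α β : C.ι}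
  {b b' : S.H.ι} {i j : Fin (C.k α)} {j' : Fin (C.k β)} {e e' : Chart p Y.X} {x x' x'' : V.X}
  {a a' : V.X → ℂ} {r : ℕ}

theorem exists_ad' (hx : f x ∈ C.U α) (hb : x ∈ S.H.U b) (he : At e (f x)) :
    ∃ j, S.Ad α b j e x := (S.nz α b x hx hb).imp fun _ h => ⟨hx, hb, h, he⟩

variable (S) in
theorem exists_ad (x : V.X) : ∃ α b j e, S.Ad α b j e x :=
  let ⟨α, h⟩ := C.cov (f x)
  let ⟨b, hb⟩ := S.lb.cover x
  let ⟨j, k⟩ := exists_ad' h hb (at_chart _)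
  ⟨α, b, j, _, k⟩

theorem Ad.near (h : S.Ad α b j e x) (hf : Continuous f) : ∀ᶠ z in 𝓝 x, S.Ad α b j e z := by
  filter_upwards [hf.continuousAt.eventually ((C.opn α).mem_nhds h.mem), lb_near S.lb h.fr,
    (S.hol α j b x h.mem h.fr).continuousAt'.eventually_ne h.ne,
    hf.continuousAt.eventually (at_near h.ch)] with z k1 k2 k3 k4 using ⟨k1, k2, k3, k4⟩

theorem ratio_eq (hx : f x ∈ C.U α) (hb : x ∈ S.H.U b) (hb' : x ∈ S.H.U b') :
    S.φ α i b x / S.φ α j b x = S.φ α i b' x / S.φ α j b' x := by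
  rw [S.chg α i b b' x hx hb hb', S.chg α j b b' x hx hb hb',
    mul_div_mul_left _ _ (S.lb.ne_zero _ _ x hb hb')]

theorem crd_eq (hx : f x ∈ C.U α) (hb : x ∈ S.H.U b) (hb' : x ∈ S.H.U b') :
    S.crd α b j e x = S.crd α b' j e x :=
  congrArg (Sum.elim · (e (f x))) (funext fun _ => ratio_eq hx hb hb')

theorem Ad.frame (h : S.Ad α b j e x) (hb : x ∈ S.H.U b') : S.Ad α b' j e x :=
  ⟨h.mem, hb, fun k => h.ne (by rw [S.chg α j b b' x h.mem h.fr hb, k, mul_zero]), h.ch⟩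

theorem Ad.hol (h : S.Ad α b j e x) (hf : HolM n p f) (c : Fin (C.k α) ⊕ Fin p) :
    Hol n (fun z => S.crd α b j e z c) x := by
  cases c with
  | inl i => exact (S.hol α i b x h.mem h.fr).mul ((S.hol α j b x h.mem h.fr).inv h.ne)
  | inr c => exact hf.hol (hol_chart h.ch c)

theorem Ad.anV (h : S.Ad α b j e x) (hf : HolM n p f) : AnV n (S.crd α b j e) x :=
  AnV.pi (h.hol hf)

theorem an_inr {γ : Type} [Fintype γ] (t : γ ⊕ Fin p → ℂ) :
    AnalyticAt ℂ (fun t : γ ⊕ Fin p → ℂ => (fun c => t (.inr c) : Cm p)) t :=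
  AnalyticAt.pi fun c => (ContinuousLinearMap.proj (R := ℂ) (φ := fun _ => ℂ) (Sum.inr c)).analyticAt t

theorem an_proj {γ : Type} [Fintype γ] (t : γ → ℂ) (c : γ) : AnalyticAt ℂ (fun t : γ → ℂ => t c) t :=
  (ContinuousLinearMap.proj (R := ℂ) (φ := fun _ => ℂ) c).analyticAt t

/-- the change of the affine coordinates -/
theorem trans (h : S.Ad α b j e x) (h' : S.Ad β b' j' e' x) :
    ∃ ψ : (Fin (C.k α) ⊕ Fin p → ℂ) → Fin (C.k β) ⊕ Fin p → ℂ, AnalyticAt ℂ ψ (S.crd α b j e x) ∧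
      ∀ᶠ t in 𝓝 (S.crd α b j e x), ∀ z b₁, S.Ad α b₁ j e z → S.crd α b₁ j e z = t →
        S.Ad β b₁ j' e' z ∧ S.crd β b₁ j' e' z = ψ t := by
  obtain ⟨A, hA, k⟩ := S.cmp α β _ h.mem h'.mem
  let N : Fin (C.k β) → (Fin (C.k α) ⊕ Fin p → ℂ) → ℂ := fun i t =>
    ∑ l, A i l (e.symm fun c => t (.inr c)) * t (.inl l)
  have hN : ∀ i, AnalyticAt ℂ (N i) (S.crd α b j e x) := fun i =>
    Finset.analyticAt_fun_sum _ fun l _ =>
      ((hA i l e h.ch).comp_of_eq (an_inr _) rfl).mul (an_proj _ _)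
  have key : ∀ z b₁, S.Ad α b₁ j e z → (∀ i, S.φ β i b₁ z = ∑ l, A i l (f z) * S.φ α l b₁ z) →
      ∀ i, S.φ β i b₁ z = S.φ α j b₁ z * N i (S.crd α b₁ j e z) := fun z b₁ k1 k2 i => by
    rw [k2, Finset.mul_sum]
    refine Finset.sum_congr rfl fun l _ => ?_
    change _ = _ * (A i l (e.symm (e (f z))) * (_ / _))
    rw [e.left_inv k1.ch.2, mul_left_comm, mul_div_cancel₀ _ k1.ne]
  have h0 : N j' (S.crd α b j e x) ≠ 0 := fun c => (h'.frame h.fr).ne (by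
    rw [key x b h (k.self_of_nhds x trivial rfl b h.fr), c, mul_zero])
  have hT : Tendsto (fun t : Fin (C.k α) ⊕ Fin p → ℂ => e.symm fun c => t (.inr c))
      (𝓝 (S.crd α b j e x)) (𝓝 (f x)) :=
    (P277Z.Slc.tendsto_symm h.ch).comp (an_inr _).continuousAt
  refine ⟨fun t => Sum.elim (fun i => N i t / N j' t) (e' (e.symm fun c => t (.inr c))),
    AnalyticAt.pi ?_, ?_⟩
  · rintro (i | c)
    · exact (hN i).div (hN j') h0
    · exact (analyticAt_pi_iff.1 (trans_an h'.ch h.ch) c).comp_of_eq (an_inr _) rfl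
  · have k3 := hT.eventually (k.and (((C.opn β).eventually_mem h'.mem).and (at_near h'.ch)))
    filter_upwards [k3, (hN j').continuousAt.eventually_ne h0] with t k4 k5 z b₁ k6 k7
    subst k7
    have k8 : (e.symm fun c => S.crd α b₁ j e z (.inr c)) = f z := e.left_inv k6.ch.2
    rw [k8] at k4 ⊢
    have k9 := key z b₁ k6 (k4.1 z trivial rfl b₁ k6.fr)
    refine ⟨⟨k4.2.1, k6.fr, by rw [k9]; exact mul_ne_zero k6.ne k5, k4.2.2⟩, ?_⟩
    refine congrArg (Sum.elim · (e' (f z))) (funext fun i => ?_)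
    rw [k9, k9, mul_div_mul_left _ _ k6.ne]

theorem trans' (hf : HolM n p f) (h : S.Ad α b j e x) (h' : S.Ad β b' j' e' x) :
    ∃ ψ : (Fin (C.k α) ⊕ Fin p → ℂ) → Fin (C.k β) ⊕ Fin p → ℂ, AnalyticAt ℂ ψ (S.crd α b j e x) ∧
      ∀ᶠ z in 𝓝 x, S.crd β b' j' e' z = ψ (S.crd α b j e z) := by
  obtain ⟨ψ, k1, k2⟩ := trans h h'
  refine ⟨ψ, k1, ?_⟩
  filter_upwards [(h.anV hf).cont.eventually k2, h.near hf.cont, h'.near hf.cont] with z k3 k4 k5
  rw [crd_eq k5.mem k5.fr k4.fr, (k3 z b k4 rfl).2]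

theorem fn_of (hf : HolM n p f) (h : S.Ad α b j e x) {A : (Fin (C.k α) ⊕ Fin p → ℂ) → ℂ}
    (hA : AnalyticAt ℂ A (S.crd α b j e x)) (k : ∀ᶠ z in 𝓝 x, a z = A (S.crd α b j e z)) :
    S.Fn a x := fun β b' j' e' h' => by
  obtain ⟨ψ, k1, k2⟩ := trans' hf h' h
  refine ⟨fun t => A (ψ t), hA.comp_of_eq k1 k2.self_of_nhds.symm, ?_⟩
  filter_upwards [k, k2] with z k3 k4
  rw [k3, k4]

theorem Fn.congr (h : S.Fn a x) (k : ∀ᶠ z in 𝓝 x, a z = a' z) : S.Fn a' x := fun α b j e h' =>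
  (h α b j e h').imp fun _ c => ⟨c.1, (k.and c.2).mono fun _ d => d.1.symm.trans d.2⟩

theorem Fn.near (h : S.Fn a x) (hf : HolM n p f) : ∀ᶠ z in 𝓝 x, S.Fn a z := by
  obtain ⟨α, b, j, e, k⟩ := S.exists_ad x
  obtain ⟨A, k1, k2⟩ := h α b j e k
  filter_upwards [k.near hf.cont, (k.anV hf).cont.eventually k1.eventually_analyticAt,
    k2.eventually_nhds] with z k3 k4 k5 using fn_of hf k3 k4 k5

theorem Fn.hol (h : S.Fn a x) (hf : HolM n p f) : Hol n a x := by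
  obtain ⟨α, b, j, e, k⟩ := S.exists_ad x
  obtain ⟨A, k1, k2⟩ := h α b j e k
  exact P277Z.Hol.congr (fun c hc => (k.anV hf).cmp k1 c hc) (k2.mono fun _ => Eq.symm)

theorem Ad.fn (h : S.Ad α b j e x) (hf : HolM n p f) (c : Fin (C.k α) ⊕ Fin p) :
    S.Fn (fun z => S.crd α b j e z c) x := fn_of hf h (an_proj _ c) (.of_forall fun _ => rfl)

theorem fn_base (hf : HolM n p f) {g : Y.X → ℂ} (hg : Hol p g (f x)) :
    S.Fn (fun z => g (f z)) x := fun α b j e h =>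
  ⟨fun t => g (e.symm fun c => t (.inr c)), (hg e h.ch).comp_of_eq (an_inr _) rfl,
    (h.near hf.cont).mono fun z k => congrArg g (e.left_inv k.ch.2).symm⟩

/-- ratios of linear combinations -/
theorem fn_div (hf : HolM n p f) (hx : f x ∈ C.U α) (hb : x ∈ S.H.U b) (v w : Fin (C.k α) → ℂ)
    (h0 : ∑ i, w i * S.φ α i b x ≠ 0) :
    S.Fn (fun z => (∑ i, v i * S.φ α i b z) / ∑ i, w i * S.φ α i b z) x := by
  obtain ⟨j, h⟩ := exists_ad' hx hb (at_chart _)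
  have key : ∀ (v : Fin (C.k α) → ℂ) z, S.φ α j b z ≠ 0 → ∑ i, v i * S.φ α i b z =
      S.φ α j b z * ∑ i, v i * S.crd α b j (chartAt (Cm p) (f x)) z (.inl i) := fun v z k => by
    rw [Finset.mul_sum]
    exact Finset.sum_congr rfl fun i _ => by
      change _ = _ * (_ * (_ / _))
      rw [mul_left_comm, mul_div_cancel₀ _ k]
  have hA : ∀ (v : Fin (C.k α) → ℂ) t, AnalyticAt ℂ
      (fun t : Fin (C.k α) ⊕ Fin p → ℂ => ∑ i, v i * t (.inl i)) t := fun v t =>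
    Finset.analyticAt_fun_sum _ fun i _ => analyticAt_const.mul (an_proj _ _)
  refine fn_of hf h (A := fun t => (∑ i, v i * t (.inl i)) / ∑ i, w i * t (.inl i))
    ((hA v _).div (hA w _) fun c => h0 (by rw [key w x h.ne, c, mul_zero])) ?_
  filter_upwards [h.near hf.cont] with z k
  rw [key v z k.ne, key w z k.ne, mul_div_mul_left _ _ k.ne]

theorem Rk.near (h : S.Rk r x) (hf : HolM n p f) : ∀ᶠ z in 𝓝 x, S.Rk r z := by
  obtain ⟨α, b, j, e, σ, k1, k2⟩ := h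
  filter_upwards [k1.near hf.cont, k2.near] with z k3 k4 using ⟨α, b, j, e, σ, k3, k4⟩

theorem Rel.symm (h : S.Rel x x') : S.Rel x' x :=
  ⟨h.1.symm, fun α b b' i j k1 k2 k3 => by
    rw [mul_comm, ← h.2 α b' b i j (h.1 ▸ k1) k3 k2, mul_comm]⟩

theorem Rel.refl (x : V.X) : S.Rel x x := ⟨rfl, fun α b b' i j k1 k2 k3 => by
  rw [S.chg α i b b' x k1 k2 k3, S.chg α j b b' x k1 k2 k3]
  ring⟩

/-- one chart is enough -/
theorem rel_of (h : f x = f x') (hx : f x ∈ C.U α) (hb : x ∈ S.H.U b) (hb' : x' ∈ S.H.U b') {c : ℂ}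
    (k : ∀ i, S.φ α i b x = c * S.φ α i b' x') : S.Rel x x' := ⟨h, fun β d d' i j k1 k2 k3 => by
  obtain ⟨A, -, k4⟩ := S.cmp α β _ hx k1
  have k5 : ∀ l, S.φ β l b x = c * S.φ β l b' x' := fun l => by
    rw [k4.self_of_nhds x trivial rfl b hb, k4.self_of_nhds x' trivial h.symm b' hb',
      Finset.mul_sum]
    exact Finset.sum_congr rfl fun l' _ => by rw [k, mul_left_comm]
  rw [S.chg β i d b x k1 k2 hb, S.chg β j d b x k1 k2 hb, S.chg β i d' b' x' (h ▸ k1) k3 hb',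
    S.chg β j d' b' x' (h ▸ k1) k3 hb', k5, k5]
  ring⟩

theorem Rel.prop (h : S.Rel x x') (hx : f x ∈ C.U α) (hb : x ∈ S.H.U b) (hb' : x' ∈ S.H.U b') :
    ∃ c : ℂ, c ≠ 0 ∧ ∀ i, S.φ α i b x = c * S.φ α i b' x' := by
  obtain ⟨j, hj⟩ := S.nz α b' x' (h.1 ▸ hx) hb'
  have k : ∀ i, S.φ α i b x = S.φ α j b x / S.φ α j b' x' * S.φ α i b' x' := fun i => by
    rw [div_mul_eq_mul_div, eq_div_iff hj, h.2 α b b' i j hx hb hb']
  obtain ⟨i, hi⟩ := S.nz α b x hx hb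
  exact ⟨_, fun c => hi (by rw [k, c, zero_mul]), k⟩

theorem Rel.trans (h : S.Rel x x') (h' : S.Rel x' x'') : S.Rel x x'' := by
  obtain ⟨α, hx⟩ := C.cov (f x)
  obtain ⟨b, hb⟩ := S.lb.cover x
  obtain ⟨b', hb'⟩ := S.lb.cover x'
  obtain ⟨b'', hb''⟩ := S.lb.cover x''
  obtain ⟨c, -, k⟩ := h.prop hx hb hb'
  obtain ⟨c', -, k'⟩ := h'.prop (h.1 ▸ hx) hb' hb''
  exact rel_of (h.1.trans h'.1) hx hb hb'' (c := c * c') fun i => by rw [k, k', mul_assoc]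

theorem Rel.ad (h : S.Rel x x') (k : S.Ad α b j e x) (hb' : x' ∈ S.H.U b') :
    S.Ad α b' j e x' ∧ S.crd α b j e x = S.crd α b' j e x' := by
  obtain ⟨c, c0, k1⟩ := h.prop k.mem k.fr hb'
  refine ⟨⟨h.1 ▸ k.mem, hb', fun d => k.ne (by rw [k1, d, mul_zero]), h.1 ▸ k.ch⟩, ?_⟩
  simp only [crd, k1, mul_div_mul_left _ _ c0, h.1]

theorem rel_of_crd (k : S.Ad α b j e x) (k' : S.Ad α b' j e x')
    (h : S.crd α b j e x = S.crd α b' j e x') : S.Rel x x' :=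
  rel_of (e.injOn k.ch.2 k'.ch.2 (funext fun c => congrFun h (.inr c))) k.mem k.fr k'.fr
    (c := S.φ α j b x / S.φ α j b' x') fun i => by
      have k1 : S.φ α i b x / S.φ α j b x = S.φ α i b' x' / S.φ α j b' x' := congrFun h (.inl i)
      rw [(div_eq_iff k.ne).1 k1]
      ring

variable {m : ℕ} {V' : Mf m} {v : V'.X → V.X}

variable (S) in
/-- the pull back -/
def comp (hv : HolM m n v) : LS (fun x => f (v x)) C where
  H := pull v S.H
  φ α j b x := S.φ α j b (v x)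
  lb := hv.lb S.lb
  hol α j b x h1 h2 := hv.hol (S.hol α j b _ h1 h2)
  chg α j b b' x := S.chg α j b b' (v x)
  nz α b x := S.nz α b (v x)
  cmp α β y h1 h2 := (S.cmp α β y h1 h2).imp fun _ k => ⟨k.1, k.2.mono fun _ c x _ => c _ trivial⟩

theorem comp_rel (hv : HolM m n v) {x x' : V'.X} : (S.comp hv).Rel x x' ↔ S.Rel (v x) (v x') :=
  Iff.rfl

theorem Rk.comp (hv : HolM m n v) {x : V'.X} (h : S.Rk r (v x)) (hs : Sbm m n v x) :
    (S.comp hv).Rk r x := by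
  obtain ⟨α, b, j, e, σ, k1, k2⟩ := h
  refine ⟨α, b, j, e, σ, ⟨k1.mem, k1.fr, k1.ne, k1.ch⟩, ind_congr (hs.ind (hv.at x) k2) ?_⟩
  rintro (c | c) <;> exact .of_forall fun _ => rfl

end Vale.Agent.P281Z.Ri.LS
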