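import Vale.Agent.P281Z.Ri.Defs

/-!
# P281, block R1: the quotient by a relative linear system, and its coordinates
-/

open scoped Manifold ContDiff Topology
open Set Filter Function
open Vale.Agent.P272.K (Cm Chart At)
open Vale.Agent.P277Z (Hol)

noncomputable section

namespace Vale.Agent.P281Z.Ri.Q

variable {n p : ℕ} {V : Mf n} {Y : Mf p} {f : V.X → Y.X} {C : Cvr Y} {S : LS f C} {x x' : V.X}
  {b b' : S.H.ι} {α β : C.ι}

theorem prop_of (h : f x = f x') (hα : f x ∈ C.U α) (hb : x ∈ S.H.U b) (hb' : x' ∈ S.H.U b')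
    (k : ∀ i j, S.φ α i b x * S.φ α j b' x' = S.φ α j b x * S.φ α i b' x') :
    ∃ c ≠ 0, ∀ β i, f x ∈ C.U β → S.φ β i b x = c * S.φ β i b' x' := by
  obtain ⟨l, hl⟩ := S.nz α b' x' (h ▸ hα) hb'
  have a : ∀ i, S.φ α i b x = S.φ α l b x / S.φ α l b' x' * S.φ α i b' x' := fun i => by
    rw [div_mul_eq_mul_div, eq_div_iff hl, k]
  refine ⟨S.φ α l b x / S.φ α l b' x', fun c => ?_, fun β j hβ => ?_⟩
  · obtain ⟨i, hi⟩ := S.nz α b x hα hb
    exact hi (by rw [a, c, zero_mul])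
  · obtain ⟨A, -, hA⟩ := S.cmp α β _ hα hβ
    rw [hA.self_of_nhds x trivial rfl b hb, hA.self_of_nhds x' trivial h.symm b' hb',
      Finset.mul_sum]
    exact Finset.sum_congr rfl fun i _ => by rw [a i, mul_left_comm]

theorem rel_prop (h : S.Rel x x') (hb : x ∈ S.H.U b) (hb' : x' ∈ S.H.U b') :
    ∃ c ≠ 0, ∀ β i, f x ∈ C.U β → S.φ β i b x = c * S.φ β i b' x' :=
  let ⟨α, hα⟩ := C.cov (f x)
  prop_of h.1 hα hb hb' fun i j => h.2 α b b' i j hα hb hb'

theorem rel_of (h : f x = f x') (hb : x ∈ S.H.U b) (hb' : x' ∈ S.H.U b') {c : ℂ}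
    (k : ∀ β i, f x ∈ C.U β → S.φ β i b x = c * S.φ β i b' x') : S.Rel x x' :=
  ⟨h, fun α d d' i j a e e' => by
    rw [S.chg α i d b x a e hb, S.chg α j d b x a e hb, S.chg α i d' b' x' (h ▸ a) e' hb',
      S.chg α j d' b' x' (h ▸ a) e' hb', k α i a, k α j a]
    ring⟩

variable (S) in
/-- the equivalence relation -/
def st : Setoid V.X where
  r := S.Rel
  iseqv := ⟨fun x => let ⟨_, hb⟩ := S.lb.cover x
      rel_of rfl hb hb (c := 1) fun _ _ _ => (one_mul _).symm,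
    fun h => ⟨h.1.symm, fun α b b' i j a c d => by
      rw [mul_comm, h.2 α b' b j i (h.1 ▸ a) d c, mul_comm]⟩,
    fun {x x' x''} h k => by
      obtain ⟨b, hb⟩ := S.lb.cover x
      obtain ⟨b', hb'⟩ := S.lb.cover x'
      obtain ⟨b'', hb''⟩ := S.lb.cover x''
      obtain ⟨c, -, hc⟩ := rel_prop h hb hb'
      obtain ⟨c', -, hc'⟩ := rel_prop k hb' hb''
      exact rel_of (h.1.trans k.1) hb hb'' (c := c * c') fun β i a => by
        rw [hc β i a, hc' β i (h.1 ▸ a), mul_assoc]⟩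

variable (S) in
/-- the quotient -/
abbrev Pt : Type := Quotient (st S)

variable (S) in
/-- the projection -/
def qq (x : V.X) : Pt S := Quotient.mk (st S) x

/-- the map to the base -/
def hh : Pt S → Y.X := Quotient.lift f fun _ _ h => h.1

theorem qq_cont : Continuous (qq S) := continuous_quotient_mk'

theorem qq_surj : Surjective (qq S) := Quotient.mk_surjective

theorem qq_eq : qq S x = qq S x' ↔ S.Rel x x' := Quotient.eq

theorem qq_out (w : Pt S) : qq S w.out = w := Quotient.out_eq w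

theorem hh_out (w : Pt S) : f w.out = hh w := congrArg hh (qq_out w)

/-- a frame at the chosen representative -/
def fr (w : Pt S) : S.H.ι := (S.lb.cover w.out).choose

theorem fr_mem (w : Pt S) : w.out ∈ S.H.U (fr w) := (S.lb.cover w.out).choose_spec

/-- homogeneous coordinates -/
def ψ (α : C.ι) (i : Fin (C.k α)) (w : Pt S) : ℂ := S.φ α i (fr w) w.out

theorem ψ_prop (hb : x ∈ S.H.U b) :
    ∃ c ≠ 0, ∀ β i, f x ∈ C.U β → ψ β i (qq S x) = c * S.φ β i b x := by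
  have h : S.Rel (qq S x).out x := qq_eq.1 (qq_out _)
  obtain ⟨c, c0, hc⟩ := rel_prop h (fr_mem _) hb
  exact ⟨c, c0, fun β i a => hc β i (h.1 ▸ a)⟩

theorem ψ_nz {w : Pt S} (h : hh w ∈ C.U α) : ∃ j, ψ α j w ≠ 0 :=
  S.nz α _ _ (hh_out w ▸ h) (fr_mem w)

theorem eq_of_cross {w w' : Pt S} (h : hh w = hh w') (hα : hh w ∈ C.U α)
    (k : ∀ i j, ψ α i w * ψ α j w' = ψ α j w * ψ α i w') : w = w' := by
  have e : f w.out = f w'.out := (hh_out w).trans (h.trans (hh_out w').symm)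
  obtain ⟨c, -, hc⟩ := prop_of e (hh_out w ▸ hα) (fr_mem w) (fr_mem w') k
  rw [← qq_out w, ← qq_out w']
  exact qq_eq.2 (rel_of e (fr_mem w) (fr_mem w') hc)

/-- affine coordinates -/
def T (α : C.ι) (j : Fin (C.k α)) (e : Chart p Y.X) (w : Pt S) : Fin (C.k α) ⊕ Fin p → ℂ :=
  Sum.elim (fun i => ψ α i w / ψ α j w) (e (hh w))

variable (S) in
/-- the domain of the affine coordinates -/
def Om (α : C.ι) (j : Fin (C.k α)) (e : Chart p Y.X) : Set (Pt S) :=
  {w | (hh w ∈ C.U α ∧ ψ α j w ≠ 0) ∧ At e (hh w)}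

variable {j : Fin (C.k α)} {j' : Fin (C.k β)} {e e' : Chart p Y.X} {w : Pt S} {a : Pt S → ℂ}

theorem T_eq (h : S.Ad α b j e x) : T α j e (qq S x) = S.crd α b j e x := by
  obtain ⟨c, c0, hc⟩ := ψ_prop h.fr
  refine funext fun i => Sum.casesOn i (fun i => ?_) fun _ => rfl
  change ψ α i (qq S x) / ψ α j (qq S x) = S.φ α i b x / S.φ α j b x
  rw [hc α i h.mem, hc α j h.mem, mul_div_mul_left _ _ c0]

theorem om_iff (hb : x ∈ S.H.U b) : qq S x ∈ Om S α j e ↔ S.Ad α b j e x := by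
  obtain ⟨c, c0, hc⟩ := ψ_prop hb
  exact ⟨fun h => ⟨h.1.1, hb, fun k => h.1.2 (by rw [hc α j h.1.1, k, mul_zero]), h.2⟩,
    fun h => ⟨⟨h.mem, by rw [hc α j h.mem]; exact mul_ne_zero c0 h.ne⟩, h.ch⟩⟩

theorem exists_om (w : Pt S) : ∃ α j e, w ∈ Om S α j e := by
  obtain ⟨α, hα⟩ := C.cov (hh w)
  obtain ⟨j, hj⟩ := ψ_nz hα
  exact ⟨α, j, _, ⟨hα, hj⟩, P277Z.Slc.at_chartAt _⟩

theorem T_inj {w' : Pt S} (h : w ∈ Om S α j e) (h' : w' ∈ Om S α j e)
    (k : T α j e w = T α j e w') : w = w' := by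
  have a : ∀ i, ψ α i w / ψ α j w = ψ α i w' / ψ α j w' := fun i => congrFun k (.inl i)
  refine eq_of_cross (e.injOn h.2.2 h'.2.2 (funext fun c => congrFun k (.inr c))) h.1.1
    fun i l => ?_
  rw [(div_eq_iff h.1.2).1 (a i), (div_eq_iff h.1.2).1 (a l)]
  ring

/-- `a` is near `w` a holomorphic function of the affine coordinates -/
def Fc (α : C.ι) (j : Fin (C.k α)) (e : Chart p Y.X) (a : Pt S → ℂ) (w : Pt S) : Prop :=
  ∃ A : (Fin (C.k α) ⊕ Fin p → ℂ) → ℂ, AnalyticAt ℂ A (T α j e w) ∧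
    ∀ᶠ z in 𝓝 w, a z = A (T α j e z)

theorem Fc.congr {a' : Pt S → ℂ} (h : Fc α j e a w) (k : ∀ᶠ z in 𝓝 w, a' z = a z) :
    Fc α j e a' w :=
  let ⟨A, h1, h2⟩ := h
  ⟨A, h1, (k.and h2).mono fun _ c => c.1.trans c.2⟩

theorem Fc.comp {ι : Type} [Fintype ι] {a : ι → Pt S → ℂ} (h : ∀ i, Fc α j e (a i) w)
    {G : (ι → ℂ) → ℂ} (hG : AnalyticAt ℂ G fun i => a i w) :
    Fc α j e (fun z => G fun i => a i z) w := by
  choose A h1 h2 using h
  refine ⟨fun u => G fun i => A i u, AnalyticAt.fun_comp (f := fun u i => A i u) ?_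
    (AnalyticAt.pi h1), (eventually_all.2 h2).mono fun z c => by simp only [c]⟩
  rwa [← funext fun i => (h2 i).self_of_nhds]

theorem Fc.div {a' : Pt S → ℂ} (h : Fc α j e a w) (k : Fc α j e a' w) (c : a' w ≠ 0) :
    Fc α j e (fun z => a z / a' z) w := by
  obtain ⟨A, h1, h2⟩ := h
  obtain ⟨B, k1, k2⟩ := k
  exact ⟨fun u => A u / B u, h1.fun_div k1 (k2.self_of_nhds ▸ c),
    (h2.and k2).mono fun _ d => congrArg₂ (· / ·) d.1 d.2⟩

theorem an_proj {ι : Type} [Fintype ι] (i : ι) (u : ι → ℂ) : AnalyticAt ℂ (fun v : ι → ℂ => v i) u :=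
  (ContinuousLinearMap.proj (R := ℂ) (φ := fun _ : ι => ℂ) i).analyticAt u

variable (hf : HolM n p f)
include hf

theorem closed_rel : IsClosed {z : V.X × V.X | S.Rel z.1 z.2} := by
  refine isClosed_iff_frequently.2 fun z hz => ?_
  have a : f z.1 = f z.2 := (isClosed_eq (hf.cont.comp continuous_fst)
    (hf.cont.comp continuous_snd)).mem_of_frequently_of_tendsto (hz.mono fun _ h => h.1) tendsto_id
  refine ⟨a, fun α b b' i j h1 h2 h3 => by_contra fun k => ?_⟩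
  have c1 : ∀ i, ContinuousAt (fun y : V.X × V.X => S.φ α i b y.1) z := fun i =>
    (S.hol α i b _ h1 h2).cont.comp continuousAt_fst
  have c2 : ∀ i, ContinuousAt (fun y : V.X × V.X => S.φ α i b' y.2) z := fun i =>
    (S.hol α i b' _ (a ▸ h1) h3).cont.comp continuousAt_snd
  obtain ⟨y, d1, d2, d3, d4, d5⟩ := (hz.and_eventually
    (((((c1 i).mul (c2 j)).sub ((c1 j).mul (c2 i))).eventually_ne (sub_ne_zero.2 k)).and
      (((hf.cont.comp continuous_fst).continuousAt.eventually ((C.opn α).mem_nhds h1)).and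
        ((continuousAt_fst.eventually ((S.lb.isOpen b).mem_nhds h2)).and
          (continuousAt_snd.eventually ((S.lb.isOpen b').mem_nhds h3)))))).exists
  exact d2 (sub_eq_zero.2 (d1.2 α b b' i j d3 d4 d5))

theorem qq_closed : IsClosedMap (qq S) := fun F hF => by
  refine isQuotientMap_quotient_mk'.isClosed_preimage.1 ?_
  have e : qq S ⁻¹' (qq S '' F) = Prod.snd '' ({z : V.X × V.X | S.Rel z.1 z.2} ∩ Prod.fst ⁻¹' F) :=
    Set.ext fun x => ⟨fun ⟨y, h1, h2⟩ => ⟨(y, x), ⟨qq_eq.1 h2, h1⟩, rfl⟩,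
      fun ⟨z, h1, h2⟩ => ⟨z.1, h1.2, h2 ▸ qq_eq.2 h1.1⟩⟩
  exact e ▸ (((closed_rel hf).inter (hF.preimage continuous_fst)).isCompact.image
    continuous_snd).isClosed

theorem ev_of {P : Pt S → Prop} (h : ∀ x, qq S x = w → ∀ᶠ z in 𝓝 x, P (qq S z)) :
    ∀ᶠ z in 𝓝 w, P z :=
  ((qq_closed hf).eventually_nhds_fiber w h).mono fun z k => qq_out z ▸ k z.out (qq_out z)

theorem t2 : T2Space (Pt S) := ⟨fun w w' h => by
  have c : ∀ w : Pt S, IsCompact (qq S ⁻¹' {w}) := fun w => by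
    have := ((qq_closed hf) {w.out} isClosed_singleton).preimage (qq_cont (S := S))
    rw [image_singleton, qq_out] at this
    exact this.isCompact
  obtain ⟨A, B, a1, a2, a3, a4, a5⟩ := SeparatedNhds.of_isCompact_isCompact (c w) (c w')
    ((disjoint_singleton.2 h).preimage _)
  refine ⟨(qq S '' Aᶜ)ᶜ, (qq S '' Bᶜ)ᶜ, (qq_closed hf _ a1.isClosed_compl).isOpen_compl,
    (qq_closed hf _ a2.isClosed_compl).isOpen_compl, fun ⟨x, k, l⟩ => k (a3 l),
    fun ⟨x, k, l⟩ => k (a4 l), disjoint_left.2 fun z k l => ?_⟩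
  exact disjoint_left.1 a5 (not_not.1 fun m => k ⟨z.out, m, qq_out z⟩)
    (not_not.1 fun m => l ⟨z.out, m, qq_out z⟩)⟩

theorem hh_cont : Continuous (hh : Pt S → Y.X) := hf.cont.quotient_lift _

theorem ad_near (h : S.Ad α b j e x) : ∀ᶠ z in 𝓝 x, S.Ad α b j e z := by
  filter_upwards [hf.cont.continuousAt.eventually ((C.opn α).mem_nhds h.mem),
    (S.lb.isOpen b).mem_nhds h.fr, (S.hol α j b x h.mem h.fr).cont.eventually_ne h.ne,
    hf.cont.continuousAt.eventually (at_near h.ch)] with z a1 a2 a3 a4 using ⟨a1, a2, a3, a4⟩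

theorem om_open : IsOpen (Om S α j e) := isOpen_iff_eventually.2 fun w h => ev_of hf fun x k => by
  obtain ⟨b, hb⟩ := S.lb.cover x
  exact (ad_near hf ((om_iff hb).1 (k ▸ h))).mono fun z a => (om_iff a.fr).2 a

theorem nz_near (h : hh w ∈ C.U α) (k : ψ α j w ≠ 0) : ∀ᶠ z in 𝓝 w, hh z ∈ C.U α ∧ ψ α j z ≠ 0 :=
  ((om_open hf).eventually_mem (⟨⟨h, k⟩, P277Z.Slc.at_chartAt _⟩ : w ∈ Om S α j _)).mono
    fun _ a => a.1

theorem hol_T (h : qq S x ∈ Om S α j e) (c : Fin (C.k α) ⊕ Fin p) :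
    Hol n (fun z => T α j e (qq S z) c) x := by
  obtain ⟨b, hb⟩ := S.lb.cover x
  have k := (om_iff hb).1 h
  refine Hol.congr (a := fun z => S.crd α b j e z c) ?_ ((ad_near hf k).mono fun z a => by
    rw [T_eq a])
  exact Sum.casesOn c (fun i => (S.hol α i b x k.mem hb).div (S.hol α j b x k.mem hb) k.ne)
    fun c => hf.hol (hol_chart k.ch c)

theorem T_cont (h : w ∈ Om S α j e) : ContinuousAt (T α j e) w := fun _ hN =>
  ev_of hf fun x k => by
    subst k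
    exact (continuousAt_pi.2 fun c => (hol_T hf h c).cont).eventually hN

theorem fc_base (h : At e (hh w)) {g : Y.X → ℂ} (hg : Hol p g (hh w)) :
    Fc α j e (fun z => g (hh z)) w :=
  ⟨fun u => g (e.symm fun c => u (.inr c)), AnalyticAt.fun_comp (g := fun v => g (e.symm v))
    (f := fun (u : Fin (C.k α) ⊕ Fin p → ℂ) c => u (.inr c)) (hg e h)
      (AnalyticAt.pi fun _ => an_proj _ _),
    ((hh_cont hf).continuousAt.eventually (at_near h)).mono fun _ a =>
      congrArg g (e.left_inv a.2).symm⟩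

theorem fc_ratio (h : w ∈ Om S α j e) (hβ : hh w ∈ C.U β) (i : Fin (C.k β)) :
    Fc α j e (fun z => ψ β i z / ψ α j z) w := by
  obtain ⟨A, h1, h2⟩ := S.cmp α β _ h.1.1 hβ
  have k := Fc.comp (α := α) (j := j) (e := e) (w := w) (ι := Fin (C.k α) ⊕ Fin (C.k α))
    (a := Sum.elim (fun l z => A i l (hh z)) fun l z => ψ α l z / ψ α j z)
    (fun l => Sum.casesOn l (fun l => fc_base hf h.2 (h1 i l)) fun l =>
      ⟨fun u => u (.inl l), an_proj _ _, .of_forall fun _ => rfl⟩)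
    (G := fun u => ∑ l, u (.inl l) * u (.inr l))
    (Finset.analyticAt_fun_sum _ fun l _ => (an_proj _ _).fun_mul (an_proj _ _))
  refine k.congr (((hh_cont hf).continuousAt.eventually h2).mono fun z c => ?_)
  have := c z.out trivial (hh_out z) (fr z) (fr_mem z) i
  simp only [Sum.elim_inl, Sum.elim_inr, ψ, this, Finset.sum_div, mul_div_assoc]

theorem fc_ratio' {γ : C.ι} (h : w ∈ Om S α j e) (hβ : hh w ∈ C.U β) (k : ψ β j' w ≠ 0)
    (hγ : hh w ∈ C.U γ) (i : Fin (C.k γ)) : Fc α j e (fun z => ψ γ i z / ψ β j' z) w :=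
  ((fc_ratio hf h hγ i).div (fc_ratio hf h hβ j') (div_ne_zero k h.1.2)).congr
    (((om_open hf).eventually_mem h).mono fun _ c => (div_div_div_cancel_right₀ c.1.2 _ _).symm)

/-- one chart is enough -/
theorem Fc.trans (k : Fc β j' e' a w) (h' : w ∈ Om S β j' e') (h : w ∈ Om S α j e) :
    Fc α j e a w := by
  obtain ⟨A, h1, h2⟩ := k
  exact (Fc.comp (a := fun c z => T β j' e' z c) (fun c => Sum.casesOn c
    (fun i => fc_ratio' hf h h'.1.1 h'.1.2 h'.1.1 i) fun c =>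
      fc_base hf h.2 (hol_chart h'.2 c)) h1).congr h2

end Vale.Agent.P281Z.Ri.Q
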