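import Vale.Agent.P281Z.Ri.Api

/-!
# P281, block R1: the smooth model of the quotient, and its dimension
-/

open scoped Manifold ContDiff Topology
open Set Filter Function
open Vale.Agent.P272.K (Cm Chart At)
open Vale.Agent.P277 (CSp IsAn)
open Vale.Agent.P277Z (Hol at_chart hol_const)
open Vale.Agent.P277Z.Slc (Ind LEq Snc)

set_option linter.all false

noncomputable section

namespace Vale.Agent.P281Z.Ri

theorem an_pre {n : ℕ} {V : Mf n} {X : CSp} {q : V.X → X.pt} {B : Set X.pt} (hc : Continuous q)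
    (hq : ∀ x a, X.Hol a (q x) → Hol n (fun z => a (q z)) x) (hB : IsAn X univ B) :
    An n (q ⁻¹' B) := fun x =>
  let ⟨k, g, h1, h2⟩ := hB (q x) trivial
  ⟨k, fun i z => g i (q z), fun i => hq x _ (h1 i), hc.continuousAt.eventually h2⟩

theorem cor_fp {n w : ℕ} {V : Mf n} {W : Mf w} {X : CSp} {q : V.X → X.pt} {π : W.X → X.pt}
    (hc : Continuous q) (hc' : Continuous π)
    (hq : ∀ x a, X.Hol a (q x) → Hol n (fun z => a (q z)) x)
    (hπ : ∀ x a, X.Hol a (π x) → Hol w (fun z => a (π z)) x) : Cor fun x y => q x = π y := by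
  intro x y
  by_cases h : q x = π y
  · obtain ⟨N, k, O, Ω, g, φ, h1, M⟩ := X.model (q x)
    have h2 : ∀ i, X.Hol (fun z => φ z i) (q x) := fun i =>
      (M.hol _ h1 _).2 ⟨fun t => t i, LS.an_proj _ i, .rfl⟩
    refine ⟨N, fun i z => φ (q z) i, fun i z => φ (π z) i, fun i => hq x _ (h2 i),
      fun i => hπ y _ (h ▸ h2 i), ?_⟩
    have k1 := (hc.comp continuous_fst).continuousAt (x := (x, y)) |>.eventually
      (M.isOpen.mem_nhds h1)
    have k2 := (hc'.comp continuous_snd).continuousAt (x := (x, y)) |>.eventually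
      (M.isOpen.mem_nhds (show π y ∈ O from h ▸ h1))
    filter_upwards [k1, k2] with z a b
    exact ⟨fun c i => by rw [c], fun c => congrArg Subtype.val
      (M.emb.injective (a₁ := ⟨_, a⟩) (a₂ := ⟨_, b⟩) (funext c))⟩
  · refine ⟨1, fun _ _ => 0, fun _ _ => 1, fun _ => hol_const 0 x, fun _ => hol_const 1 y, ?_⟩
    filter_upwards [(isOpen_ne_fun (hc.comp continuous_fst) (hc'.comp continuous_snd)).mem_nhds
      (x := (x, y)) h] with z a
    exact ⟨fun c => (a c).elim, fun c => (zero_ne_one (c 0)).elim⟩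

theorem quo_of (h1 : QSP) (h2 : QREG) (h3 : RESC) (h4 : GRF) : QUO := by
  intro n p V Y f C S hf hc
  obtain ⟨X, q, h, Q⟩ := h1 n p V Y f C S hf
  have hq : ∀ x a, X.Hol a (q x) → Hol n (fun z => a (q z)) x := fun x a k => (Q.f2 x a k).hol hf
  obtain ⟨w, hw⟩ := h2 n V X q hc Q.cont Q.surj hq
  have := Q.surj.connectedSpace Q.cont
  obtain ⟨W, π, B, R⟩ := h3 w X inferInstance hw
  obtain ⟨z₀, hz₀⟩ := R.dense.nonempty
  obtain ⟨y₀, -⟩ := (R.one z₀ hz₀).exists
  have inj : ∀ {y y'}, π y ∉ B → π y' = π y → y' = y := fun a b => (R.one _ a).unique b rfl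
  choose g₀ hg₀ using fun x => show ∃ y, q x ∉ B → π y = q x from
    (em (q x ∈ B)).elim (fun a => ⟨y₀, fun b => (b a).elim⟩)
      fun a => (R.one _ a).exists.imp fun _ b _ => b
  have t1 : Thin n (q ⁻¹' B) := (an_pre Q.cont hq R.an).thin fun e =>
    (Q.surj z₀).elim fun x k => hz₀ (k ▸ (e.ge (mem_univ x) :))
  have t2 : Thin w (π ⁻¹' B) := ⟨an_pre R.cont R.hol R.an, R.dense'⟩
  obtain ⟨V', u, g, a1, a2, a3, a4⟩ := h4 n w V W _ _ g₀ (cor_fp Q.cont R.cont hq R.hol) t1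
    fun x hx => by
      have k0 := hg₀ x hx
      refine ⟨?_, fun y => ⟨fun c => inj (k0 ▸ hx) (c.symm.trans k0.symm), fun c => c ▸ k0.symm⟩⟩
      obtain ⟨σ, k1, k2, k3, k4⟩ := R.sec (g₀ x) (k0 ▸ hx)
      rw [k0] at k1 k2 k3 k4
      refine (HolA.of_hol (f := fun z => σ (q z)) (k1.comp Q.cont.continuousAt) (at_chart _)
        fun a => hq x _ (k4 _ (hol_chart (k2 ▸ at_chart _) a))).cng ?_
      filter_upwards [Q.cont.continuousAt.eventually k3, t1.closed.isOpen_compl.mem_nhds hx]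
        with z c d using inj (hg₀ z d ▸ d) (c.trans (hg₀ z d).symm)
  have b1 : HolM w p fun y => h (π y) := fun y =>
    HolA.of_hol ((Q.hh _).1.comp R.cont.continuousAt) (at_chart _)
      fun a => R.hol y _ ((Q.hh _).2 (fun z : Y.X => chartAt (Cm p) (h (π y)) z a)
        fun e he => hol_chart (at_chart (h (π y))) a e he)
  refine ⟨w, ⟨W, V', u, g, fun y => h (π y), _, _, a1, a2, fun y => ?_, b1,
    fun x => by rw [← a3, Q.comm], t2, fun x => by rw [mem_preimage, mem_preimage, a3],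
    fun x x' k => (Q.rel _ _).1 (by rw [a3, a3, k]),
    fun x x' k k' => inj k (by rw [← a3, ← a3, (Q.rel _ _).2 k']), fun x a k => ?_,
    fun x a k k' => ?_, fun k k' => ?_⟩⟩
  · refine (isCompact_range a2.cont).isClosed.closure_subset_iff.2 (fun y' hy => ?_) (t2.2 y)
    obtain ⟨x, hx⟩ := Q.surj (π y')
    obtain ⟨x, rfl⟩ := a1.surj x
    exact ⟨x, inj hy ((a3 x).symm.trans hx)⟩
  · obtain ⟨a', k1, k2⟩ := Q.f1 _ a k
    refine ⟨fun y => a' (π y), R.hol _ _ (a3 x ▸ k1), ?_⟩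
    filter_upwards [a1.hol.cont.continuousAt.eventually k2] with z c
    rw [c, a3]
  · obtain ⟨σ, -, -, k3, k4⟩ := R.sec (g x) k
    refine ⟨fun z => a (σ (q z)), Q.f2 _ _ (a3 x ▸ k4 a k'), ?_⟩
    filter_upwards [(R.cont.comp a2.cont).continuousAt.eventually k3,
      a2.cont.continuousAt.eventually (t2.closed.isOpen_compl.mem_nhds k)] with z c d
    rw [a3, inj (y' := σ (π (g z))) d c]
  · obtain ⟨P, k1, k2⟩ := Q.amp
    have k3 := R.kah p Y h P Q.hh k1 k2 k'
    exact ⟨a4 k k3, k3⟩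

theorem diml : DIML := by
  intro n p V Y f C S hf w Q r a x e h1 h2 h3
  obtain ⟨x, ⟨k1, k2, k3⟩, k4⟩ := (((eventually_all.2 fun c => (h1 c).near hf).and
    ((hf.cont.continuousAt.eventually (at_near h2)).and h3.near)).and_frequently
      (Q.md.thin.freq x)).exists
  obtain ⟨x, rfl⟩ := Q.md.surj x
  choose b k5 k6 using fun c => Q.f1 x (Sum.elim a (fun (c : Fin p) z => e (f z) c) c)
    (by cases c with
      | inl c => exact k1 c
      | inr c => exact LS.fn_base hf (hol_chart k2 c))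
  have := ind_le (ind_of_comp (Q.hg.at x) k5
    (ind_congr ((Q.md.sbm k4).ind (Q.md.hol.at x) k3) k6))
  simpa [add_comm] using this

theorem snc_empty {n : ℕ} {V : Mf n} : Snc n (fun l : Empty => (l.elim : Set V.X)) := fun _ =>
  ⟨fun l => l.elim, fun l => l.elim, fun l => l.1.elim, fun _ _ =>
    @linearIndependent_empty_type _ _ _ _ _ _ _ ⟨fun l => l.1.elim⟩⟩

theorem gen0 (hG : GEN) {n p : ℕ} {V : Mf n} {Y : Mf p} {f : V.X → Y.X} (hf : HolM n p f) :
    ∃ Q, Thin p Q ∧ ∀ x, f x ∉ Q → Sbm n p f x :=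
  (hG n p V Y f Empty _ hf snc_empty).imp fun _ h =>
    ⟨h.1, fun x k => (h.2 _ k).sbm hf snc_empty rfl⟩

theorem dimu_of (hG : GEN) (hE : EXCH) : DIMU := by
  intro n p V Y f C S hf w Q r hc hs h
  have := Q.md.conn
  obtain ⟨T, t1, t2⟩ := gen0 hG Q.hg
  obtain ⟨T', t3, t4⟩ := gen0 hG hf
  obtain ⟨x, hx⟩ := ((Q.md.thin_pre.union (t1.pre_surj Q.hg Q.sg)).union
    (Q.md.pre_thin (t3.pre_surj hf hs))).2.nonempty
  simp only [mem_compl_iff, mem_union, not_or, mem_preimage] at hx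
  choose a k1 k2 using fun c => Q.f2 x _ (mt (Q.bad x).2 hx.1.1)
    (hol_chart (at_chart (Q.g x)) c)
  have k3 := ind_of_comp (Q.md.hol.at x) (fun c => (k1 c).hol hf) (ind_congr
    ((sbm_iff_ind (Q.hg.at x) (at_chart _)).1 (t2 x hx.1.2)) fun c => (k2 c).mono fun _ => Eq.symm)
  obtain ⟨α, b, j, e, k4⟩ := S.exists_ad (Q.u x)
  obtain ⟨σ, k5⟩ := hE n V _ _ _ (fun c z => S.crd α b j e z c) a _ r (k4.hol hf)
    ((sbm_iff_ind (hf.at _) k4.ch).1 (t4 _ hx.2)) k3 (fun c => k1 c α b j e k4) (by simpa using h)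
  exact ⟨_, α, b, j, e, σ, k4, k5⟩

end Vale.Agent.P281Z.Ri
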